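import Crest.Agent.X212.Bern84.Sol

/-!
# BERN (helper84): pointwise bounds for `Lap U` and `Lap (U, D U)`
-/

set_option autoImplicit false
set_option linter.unusedSectionVars false
set_option linter.deprecated false
open scoped ContDiff Topology RealInnerProductSpace
open Set Filter

namespace Crest.Agent.X212.Bern84

noncomputable section

section gr

variable {Q G G' : Type*} [NormedAddCommGroup G] [NormedSpace ℝ G] [NormedAddCommGroup G'] [NormedSpace ℝ G']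

/-- polynomial growth `‖f q‖ ≤ C (1 + n q) ^ k` on `s` -/
def Gr (s : Set Q) (n : Q → ℝ) (k : ℕ) (f : Q → G) : Prop := ∃ C, 0 ≤ C ∧ ∀ q ∈ s, ‖f q‖ ≤ C * (1 + |n q|) ^ k

variable {s : Set Q} {n : Q → ℝ} {k l : ℕ}

theorem Gr.mono {f : Q → G} (h : Gr s n k f) (hk : k ≤ l) : Gr s n l f := by
  obtain ⟨C, h0, h⟩ := h
  refine ⟨C, h0, fun q hq => (h q hq).trans ?_⟩
  have := abs_nonneg (n q)
  exact mul_le_mul_of_nonneg_left (pow_le_pow_right₀ (by linarith) hk) h0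

theorem Gr.add {f g : Q → G} (h : Gr s n k f) (h' : Gr s n k g) : Gr s n k fun q => f q + g q := by
  obtain ⟨C, h0, h⟩ := h
  obtain ⟨C', h0', h'⟩ := h'
  refine ⟨C + C', by positivity, fun q hq => (norm_add_le _ _).trans ?_⟩
  have := h q hq; have := h' q hq; linarith

theorem Gr.sub {f g : Q → G} (h : Gr s n k f) (h' : Gr s n k g) : Gr s n k fun q => f q - g q := by
  obtain ⟨C, h0, h⟩ := h
  obtain ⟨C', h0', h'⟩ := h'
  refine ⟨C + C', by positivity, fun q hq => (norm_sub_le _ _).trans ?_⟩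
  have := h q hq; have := h' q hq; linarith

theorem Gr.zero : Gr s n k fun _ => (0 : G) := ⟨0, le_rfl, fun q _ => by simp⟩

theorem Gr.sum {κ : Type*} (t : Finset κ) {f : κ → Q → G} (h : ∀ i ∈ t, Gr s n k (f i)) :
    Gr s n k fun q => ∑ i ∈ t, f i q := by
  classical
  induction t using Finset.induction_on with
  | empty => simpa using Gr.zero
  | insert a t ha ih =>
    simp only [Finset.sum_insert ha]
    exact (h a (by simp)).add (ih fun i hi => h i (by simp [hi]))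

theorem Gr.of_le {G'' : Type*} [NormedAddCommGroup G''] {f : Q → G} {g : Q → G'} {r : Q → G''} (h : Gr s n k f)
    (h' : Gr s n l g) (hr : ∀ q ∈ s, ‖r q‖ ≤ ‖f q‖ * ‖g q‖) :
    ∃ C, 0 ≤ C ∧ ∀ q ∈ s, ‖r q‖ ≤ C * (1 + |n q|) ^ (k + l) := by
  obtain ⟨C, h0, h⟩ := h
  obtain ⟨C', h0', h'⟩ := h'
  refine ⟨C * C', by positivity, fun q hq => (hr q hq).trans ?_⟩
  calc ‖f q‖ * ‖g q‖ ≤ (C * (1 + |n q|) ^ k) * (C' * (1 + |n q|) ^ l) :=
        mul_le_mul (h q hq) (h' q hq) (norm_nonneg _) (by positivity)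
    _ = _ := by ring

theorem Gr.app {T : Q → G →L[ℝ] G'} {g : Q → G} (h : Gr s n k T) (h' : Gr s n l g) :
    Gr s n (k + l) fun q => T q (g q) := h.of_le h' fun q _ => (T q).le_opNorm _

theorem Gr.smul {f : Q → ℝ} {g : Q → G} (h : Gr s n k f) (h' : Gr s n l g) :
    Gr s n (k + l) fun q => f q • g q := h.of_le h' fun _ _ => (norm_smul _ _).le

theorem Gr.mul {f g : Q → G →L[ℝ] G} (h : Gr s n k f) (h' : Gr s n l g) :
    Gr s n (k + l) fun q => f q * g q := h.of_le h' fun _ _ => norm_mul_le _ _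

theorem Gr.const (c : G) : Gr s n 0 fun _ => c := ⟨‖c‖, norm_nonneg _, fun q _ => by simp⟩

theorem Gr.clm (T : G →L[ℝ] G') {g : Q → G} (h' : Gr s n l g) : Gr s n l fun q => T (g q) := by
  simpa using (Gr.const T).app h'

theorem Gr.prod {f : Q → G} {g : Q → G'} (h : Gr s n k f) (h' : Gr s n k g) : Gr s n k fun q => (f q, g q) := by
  simpa using (h.clm (ContinuousLinearMap.inl ℝ G G')).add (h'.clm (ContinuousLinearMap.inr ℝ G G'))

theorem Gr.one {f : Q → G} (h : ∀ q ∈ s, ‖f q‖ ≤ |n q|) : Gr s n 1 f :=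
  ⟨1, zero_le_one, fun q hq => by have := h q hq; simp; linarith⟩

theorem Gr.bdd {f : Q → G} {C : ℝ} (h : ∀ q ∈ s, ‖f q‖ ≤ C) : Gr s n 0 f :=
  ⟨max C 0, le_max_right _ _, fun q hq => by simpa using Or.inl (h q hq)⟩

end gr

variable {P E ι : Type*} [NormedAddCommGroup P] [NormedSpace ℝ P] [NormedAddCommGroup E]
  [NormedSpace ℝ E] [Fintype ι] {F : Fm P E ι}

section bd

variable {V G Z : Type*} [NormedAddCommGroup V] [NormedSpace ℝ V] [FiniteDimensional ℝ V] [NormedAddCommGroup G]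
  [NormedSpace ℝ G] [NormedAddCommGroup Z] [NormedSpace ℝ Z]

theorem bdd_cpt {O T : Set Z} (hT : IsCompact T) (hO : T ⊆ O) (R : ℝ) {f : Z × V → G}
    (hf : ContDiffOn ℝ ∞ f (O ×ˢ univ)) : ∃ C, ∀ z ∈ T, ∀ v, ‖v‖ ≤ R → ‖f (z, v)‖ ≤ C := by
  have := FiniteDimensional.proper_real V
  obtain ⟨C, hC⟩ := (hT.prod (isCompact_closedBall (0 : V) R)).exists_bound_of_continuousOn
    (hf.continuousOn.mono (prod_mono hO (subset_univ _)))
  exact ⟨C, fun z hz v hv => hC (z, v) ⟨hz, by simpa using hv⟩⟩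

/-- the set `z ∈ T`, `‖y none‖ ≤ R` -/
def box (T : Set Z) (R : ℝ) : Set (Z × V1 ι V) := {q | q.1 ∈ T ∧ ‖pr none q.2‖ ≤ R}

variable {O T : Set Z} {R : ℝ}

theorem gr_l0 (hT : IsCompact T) (hO : T ⊆ O) {f : Z × V → G} (hf : ContDiffOn ℝ ∞ f (O ×ˢ univ)) :
    Gr (box (ι := ι) (V := V) T R) (fun q => ‖q.2‖) 0 fun q => f (q.1, pr none q.2) := by
  obtain ⟨C, hC⟩ := bdd_cpt hT hO R hf
  exact Gr.bdd fun q hq => hC _ hq.1 _ hq.2

theorem gr_fst (hT : IsCompact T) (hO : T ⊆ O) {f : Z → G} (hf : ContDiffOn ℝ ∞ f O) :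
    Gr (box (ι := ι) (V := V) T R) (fun q => ‖q.2‖) 0 fun q => f q.1 :=
  gr_l0 (f := fun q : Z × V => f q.1) hT hO (sm_fst hf)

theorem gr_pr (o : Option ι) : Gr (box (ι := ι) (V := V) T R) (fun q => ‖q.2‖) 1 fun q => pr o q.2 :=
  Gr.one fun q _ => by rw [abs_norm]; exact norm_pr_le o q.2

theorem gr_pr0 : Gr (box (ι := ι) (V := V) T R) (fun q => ‖q.2‖) 0 fun q => pr none q.2 :=
  Gr.bdd fun _ hq => hq.2

end bd

namespace Sys

variable {V : Type*} [NormedAddCommGroup V] [NormedSpace ℝ V] [FiniteDimensional ℝ V] (S : Sys F V)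
  {T : Set (P × E)} {R : ℝ}

theorem gr_raw (hT : IsCompact T) (hO : T ⊆ F.O) {G : Type*} [NormedAddCommGroup G] [NormedSpace ℝ G]
    {f : (P × E) × V → G} (hf : ContDiffOn ℝ ∞ f (F.O ×ˢ univ)) (a : ι) (o : Option ι) :
    Gr (box (ι := ι) (V := V) T R) (fun q => ‖q.2‖) 1 fun q => S.raw f a q.1 (pr none q.2) (pr o q.2) :=
  (gr_l0 hT hO (fd_smOn (opn_prod F.opn) hf)).app
    ((((Gr.const (0 : P)).prod (gr_fst hT hO (F.sme a))).mono zero_le_one).prod
      ((gr_pr o).sub (((gr_fst hT hO (S.smW a)).app gr_pr0).mono zero_le_one)))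

theorem gr_nQ (hT : IsCompact T) (hO : T ⊆ F.O) (a : ι) (o : Option ι) :
    Gr (box (ι := ι) (V := V) T R) (fun q => ‖q.2‖) 1 fun q => S.nQ a q.1 (pr none q.2) (pr o q.2) :=
  (S.gr_raw hT hO S.smQ a o).add (((gr_fst hT hO (S.smW a)).app (gr_l0 hT hO S.smQ)).mono zero_le_one)

theorem gr_nT (hT : IsCompact T) (hO : T ⊆ F.O) {f : (P × E) × V → V →L[ℝ] V}
    (hf : ContDiffOn ℝ ∞ f (F.O ×ˢ univ)) (a : ι) (o : Option ι) :
    Gr (box (ι := ι) (V := V) T R) (fun q => ‖q.2‖) 1 fun q => S.nT f a q.1 (pr none q.2) (pr o q.2) :=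
  ((S.gr_raw hT hO hf a o).add (((gr_fst hT hO (S.smW a)).mul (gr_l0 hT hO hf)).mono zero_le_one)).sub
    (((gr_l0 hT hO hf).mul (gr_fst hT hO (S.smW a))).mono zero_le_one)

theorem gr_Q0 (hT : IsCompact T) (hO : T ⊆ F.O) :
    Gr (box (ι := ι) (V := V) T R) (fun q => ‖q.2‖) 1 S.Q0 :=
  (Gr.sum _ fun a _ => (gr_l0 hT hO (S.smL a)).app (gr_pr _)).add ((gr_l0 hT hO S.smQ).mono zero_le_one)

theorem gr_Qc (hT : IsCompact T) (hO : T ⊆ F.O) (c : ι) :
    Gr (box (ι := ι) (V := V) T R) (fun q => ‖q.2‖) 2 (S.Qc c) := by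
  unfold Qc
  refine Gr.add (Gr.add (Gr.sum _ fun a _ => ?_) ((S.gr_nQ hT hO c _).mono one_le_two))
    (Gr.sum _ fun a _ => Gr.add (Gr.add ?_ ?_) (Gr.sum _ fun d _ => ?_))
  · exact (S.gr_nT hT hO (S.smL a) c _).app (gr_pr _)
  · exact ((Gr.const (2 : ℝ)).smul ((gr_l0 hT hO (S.smΦ a c)).app (gr_pr _))).mono (by norm_num)
  · exact (S.gr_nT hT hO (S.smΦ a c) a _).app (gr_pr _)
  · exact (((gr_fst hT hO (fd_smOn F.opn (F.smc a c d))).app
      ((Gr.const (0 : P)).prod (gr_fst hT hO (F.sme a)))).smul (gr_pr _)).mono (by norm_num)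

theorem gr_Q1 (hT : IsCompact T) (hO : T ⊆ F.O) :
    Gr (box (ι := ι) (V := V) T R) (fun q => ‖q.2‖) 2 S.Q1 := by
  unfold Q1
  exact (((S.gr_Q0 hT hO).mono one_le_two).clm _).add (Gr.sum _ fun c _ => (S.gr_Qc hT hO c).clm _)

theorem gr_L1 (hT : IsCompact T) (hO : T ⊆ F.O) (m : ι) :
    Gr (box (ι := ι) (V := V) T R) (fun q => ‖q.2‖) 0 (S.L1 m) := by
  have := gr_l0 (ι := ι) (R := R) hT hO (sm_lift (V' := V) (S.sm_L1 m) (inj none))
  unfold L1
  simpa only [L1, pr_inj] using this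

/-- **pointwise bounds** (constants uniform over a compact set of `(p, x)` and `‖U x‖ ≤ R`) -/
theorem lap_bd {V : Type*} [NormedAddCommGroup V] [InnerProductSpace ℝ V] [FiniteDimensional ℝ V] (S : Sys F V)
    (hT : IsCompact T) (hO : T ⊆ F.O) (R : ℝ) : ∃ C, 0 ≤ C ∧ ∀ p Ω A U, Sol S p Ω A U → ∀ x ∈ Ω, (p, x) ∈ T →
      ‖U x‖ ≤ R → ‖F.Lap p A U x‖ ≤ C * (1 + ‖F.up p A U x‖) ∧
        ‖F.Lap p (fun a x => dg (A a x)) (F.up p A U) x‖ ≤
          C * (1 + ‖F.up p A U x‖ ^ 2 + ∑ a, ‖F.D p (fun a x => dg (A a x)) a (F.up p A U) x‖) := by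
  obtain ⟨C0, h0, H0⟩ := S.gr_Q0 (R := R) hT hO
  obtain ⟨C1, h1, H1⟩ := S.gr_Q1 (R := R) hT hO
  choose C2 h2 H2 using fun m => S.gr_L1 (R := R) hT hO m
  have hs : 0 ≤ ∑ m, C2 m := Finset.sum_nonneg fun m _ => h2 m
  refine ⟨C0 + 2 * C1 + ∑ m, C2 m, by positivity, fun p Ω A U h x hx hxT hR => ?_⟩
  have hq : ((p, x), F.up p A U x) ∈ box (ι := ι) (V := V) T R := ⟨hxT, hR⟩
  have n0 := norm_nonneg (F.up p A U x)
  constructor
  · have := H0 _ hq
    simp only [Q0, pr_up_none, pr_up_some, abs_norm, pow_one] at this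
    rw [h.eqn x hx]
    refine this.trans (mul_le_mul_of_nonneg_right (by linarith) (by linarith))
  · rw [h.pro.eqn x hx]
    have a1 := H1 _ hq
    simp only [abs_norm] at a1
    have a2 : ‖∑ a, S.pro.L a ((p, x), F.up p A U x) (F.D p (fun a x => dg (A a x)) a (F.up p A U) x)‖ ≤
        (∑ m, C2 m) * ∑ a, ‖F.D p (fun a x => dg (A a x)) a (F.up p A U) x‖ := by
      rw [Finset.mul_sum]
      refine (norm_sum_le _ _).trans (Finset.sum_le_sum fun a _ => ?_)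
      refine (ContinuousLinearMap.le_opNorm _ _).trans (mul_le_mul_of_nonneg_right ?_ (norm_nonneg _))
      have := H2 a _ hq
      simp only [pow_zero, mul_one] at this
      exact this.trans (Finset.single_le_sum (fun m _ => h2 m) (Finset.mem_univ a))
    have s0 : 0 ≤ ∑ a, ‖F.D p (fun a x => dg (A a x)) a (F.up p A U) x‖ :=
      Finset.sum_nonneg fun _ _ => norm_nonneg _
    refine (norm_add_le _ _).trans ?_
    change _ + ‖S.Q1 _‖ ≤ _
    set t := ‖F.up p A U x‖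
    set σ := ∑ a, ‖F.D p (fun a x => dg (A a x)) a (F.up p A U) x‖
    set c2 := ∑ m, C2 m
    have : C1 * (1 + t) ^ 2 ≤ 2 * C1 * (1 + t ^ 2) := by nlinarith [mul_nonneg h1 (sq_nonneg (1 - t))]
    nlinarith [mul_nonneg h0 s0, mul_nonneg h1 s0, mul_nonneg h0 (sq_nonneg t), mul_nonneg hs (sq_nonneg t)]

end Sys

end

end Crest.Agent.X212.Bern84
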