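import Crest.Agent.X212.Bern84.Bd

/-!
# BERN (helper84): Bernstein–Shi gradient estimate, all orders
-/

set_option autoImplicit false
set_option linter.unusedSectionVars false
set_option linter.deprecated false
open scoped ContDiff Topology RealInnerProductSpace
open Set Filter

namespace Crest.Agent.X212.Bern84

noncomputable section

section scal

variable {E : Type*} [NormedAddCommGroup E] [NormedSpace ℝ E] {X : E → E} {x : E} {Ω : Set E}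

theorem dd_dd_mul (hΩ : IsOpen Ω) (hx : x ∈ Ω) (hX : ContDiffOn ℝ ∞ X Ω) {f g : E → ℝ} (hf : ContDiffOn ℝ ∞ f Ω)
    (hg : ContDiffOn ℝ ∞ g Ω) : dd X (dd X fun y => f y * g y) x =
      f x * dd X (dd X g) x + g x * dd X (dd X f) x + 2 * (dd X f x * dd X g x) := by
  have h1 : (dd X fun y => f y * g y) =ᶠ[𝓝 x] fun y => dd X f y * g y + f y * dd X g y :=
    evEq hΩ (fun y hy => dd_mul (dOn hΩ hf hy) (dOn hΩ hg hy)) hx
  have a := dOn hΩ hf hx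
  have b := dOn hΩ hg hx
  have c := dOn hΩ (dd_smOn hΩ hX hf) hx
  have d := dOn hΩ (dd_smOn hΩ hX hg) hx
  rw [dd_congr h1, dd_add (c.fun_mul b) (a.fun_mul d), dd_mul c b, dd_mul a d]
  ring

theorem dd_dd_const_add (M : ℝ) (f : E → ℝ) : dd X (dd X fun y => M + f y) x = dd X (dd X f) x := by
  have : (dd X fun y => M + f y) = dd X f := by
    ext y; simp [dd, fderiv_const_add]
  rw [this]

theorem dd_const_add (M : ℝ) (f : E → ℝ) : dd X (fun y => M + f y) x = dd X f x := by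
  simp [dd, fderiv_const_add]

theorem poly_bd {s K K' : ℝ} (hK : 0 ≤ K) (hK' : 0 ≤ K') (h : s ^ 4 ≤ K * (1 + s) ^ 3 + K' * s ^ 2) :
    s ≤ 1 + 8 * K + K' := by
  by_contra hc
  rw [not_le] at hc
  have h1 : 1 ≤ s := by linarith
  have h2 : (1 + s) ^ 3 ≤ 8 * s ^ 3 := by
    calc (1 + s) ^ 3 ≤ (2 * s) ^ 3 := by gcongr; linarith
      _ = 8 * s ^ 3 := by ring
  have h3 : s ^ 2 ≤ s ^ 3 := pow_le_pow_right₀ h1 (by norm_num)
  have h4 : 0 < s ^ 3 := by positivity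
  have h5 : s ^ 4 ≤ (8 * K + K') * s ^ 3 := by nlinarith [mul_le_mul_of_nonneg_left h2 hK, mul_le_mul_of_nonneg_left h3 hK']
  have : s * s ^ 3 ≤ (8 * K + K') * s ^ 3 := by nlinarith
  have := le_of_mul_le_mul_right this h4
  linarith

theorem shi_arith {t u R C n r σ d I1 I2 J : ℝ} (t0 : 0 ≤ t) (u0 : 0 ≤ u) (hR : u ≤ R) (hC : 0 ≤ C) (n0 : 0 ≤ n)
    (r0 : 0 ≤ r) (ht : t ^ 2 = u ^ 2 + d) (i1 : -(R * (C * (1 + t))) ≤ I1)
    (i2 : -(t * (C * (1 + t ^ 2 + σ))) ≤ I2) (i3 : 2 * (t * C * σ) ≤ r + n * C ^ 2 * t ^ 2)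
    (i4 : -(16 * R ^ 2 * r + t ^ 2 * d) ≤ 2 * J) :
    t ^ 4 - ((17 * R ^ 2 + 1) * (n * C ^ 2 + 2 * C) + 2 * R ^ 2 + 2 * R * C) * (1 + t) ^ 3 ≤
      t ^ 2 * (2 * d + 2 * I1) + (16 * R ^ 2 + 1 + u ^ 2) * (2 * r + 2 * I2) + 2 * J := by
  have R0 : 0 ≤ R := u0.trans hR
  have uR : u ^ 2 ≤ R ^ 2 := by gcongr
  have hd : d = t ^ 2 - u ^ 2 := by linarith
  have a1 : t ^ 2 ≤ (1 + t) ^ 3 := by nlinarith [mul_nonneg t0 (sq_nonneg t)]
  have a2 : t * (1 + t ^ 2) ≤ (1 + t) ^ 3 := by nlinarith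
  have a3 : t ^ 2 * (1 + t) ≤ (1 + t) ^ 3 := by nlinarith
  generalize (1 + t) ^ 3 = w at *
  have w0 : 0 ≤ w := (sq_nonneg t).trans a1
  have j1 : r - (n * C ^ 2 + 2 * C) * w ≤ 2 * r + 2 * I2 := by
    have b1 := mul_le_mul_of_nonneg_left a1 (mul_nonneg n0 (sq_nonneg C))
    have b2 := mul_le_mul_of_nonneg_left a2 hC
    linarith
  have j2 : 16 * R ^ 2 * r - (17 * R ^ 2 + 1) * ((n * C ^ 2 + 2 * C) * w)
      ≤ (16 * R ^ 2 + 1 + u ^ 2) * (2 * r + 2 * I2) := by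
    have a0 : 0 ≤ (n * C ^ 2 + 2 * C) * w := by positivity
    have b1 := mul_le_mul_of_nonneg_left j1 (show 0 ≤ 16 * R ^ 2 + 1 + u ^ 2 by positivity)
    have b2 := mul_nonneg r0 (sq_nonneg u)
    have b3 := mul_le_mul_of_nonneg_right uR a0
    linarith
  have j3 : 2 * (t ^ 2 * d) - 2 * R * C * w ≤ t ^ 2 * (2 * d + 2 * I1) := by
    have b1 := mul_le_mul_of_nonneg_left i1 (sq_nonneg t)
    have b2 := mul_le_mul_of_nonneg_left a3 (mul_nonneg R0 hC)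
    linarith
  have j4 : t ^ 4 - 2 * R ^ 2 * w ≤ t ^ 2 * d := by
    have b1 := mul_le_mul_of_nonneg_left uR (sq_nonneg t)
    have b2 := mul_le_mul_of_nonneg_left a1 (sq_nonneg R)
    have b3 := mul_nonneg (sq_nonneg R) w0
    rw [hd]
    linarith
  linarith

end scal

variable {P E : Type*} {ι : Type} [NormedAddCommGroup P] [NormedSpace ℝ P] [NormedAddCommGroup E]
  [NormedSpace ℝ E] [Fintype ι] {F : Fm P E ι}

section one

variable {V : Type*} [NormedAddCommGroup V] [InnerProductSpace ℝ V] {S : Sys F V} {p : P} {Ω : Set E}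
  {A : ι → E → V →L[ℝ] V} {U : E → V}

/-- a smooth skew connection on the open set `Ω` -/
structure Cn (F : Fm P E ι) (p : P) (Ω : Set E) (A : ι → E → V →L[ℝ] V) : Prop where
  opn : IsOpen Ω
  mem : ∀ x ∈ Ω, (p, x) ∈ F.O
  smA : ∀ a, ContDiffOn ℝ ∞ (A a) Ω
  skew : ∀ a, ∀ x ∈ Ω, ∀ v, ⟪A a x v, v⟫ = 0

theorem Sol.cn (h : Sol S p Ω A U) : Cn F p Ω A := ⟨h.opn, h.mem, h.smA, h.skew⟩

theorem Cn.diag (h : Cn F p Ω A) {κ : Type} [Fintype κ] :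
    Cn F p Ω fun a x => (Bern84.dg (A a x) : V1 κ V →L[ℝ] V1 κ V) :=
  ⟨h.opn, h.mem, fun a => sm_clm _ (h.smA a), fun a x hx => dg_skew (h.skew a x hx)⟩

theorem Cn.smD (h : Cn F p Ω A) (a : ι) (hU : ContDiffOn ℝ ∞ U Ω) : ContDiffOn ℝ ∞ (F.D p A a U) Ω :=
  sm_D h.opn h.mem h.smA a hU

theorem Cn.smDl (h : Cn F p Ω A) (l : List ι) (hU : ContDiffOn ℝ ∞ U Ω) : ContDiffOn ℝ ∞ (F.Dl p A l U) Ω :=
  sm_Dl h.opn h.mem h.smA hU l

theorem Cn.smup (h : Cn F p Ω A) (hU : ContDiffOn ℝ ∞ U Ω) : ContDiffOn ℝ ∞ (F.up p A U) Ω :=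
  sm_up h.opn h.mem h.smA hU

theorem Cn.lap_nsq (h : Cn F p Ω A) (hU : ContDiffOn ℝ ∞ U Ω) {x : E} (hx : x ∈ Ω) :
    ∑ a, dd (F.X p a) (dd (F.X p a) fun y => ‖U y‖ ^ 2) x =
      2 * ∑ a, ‖F.D p A a U x‖ ^ 2 + 2 * ⟪U x, F.Lap p A U x⟫ := by
  simp only [Fm.Lap, inner_sum, Finset.mul_sum, ← Finset.sum_add_distrib]
  exact Finset.sum_congr rfl fun a _ => dd_dd_nsq h.opn hx (sm_X h.mem a) (h.smA a) (h.skew a) hU

theorem Cn.d_nsq (h : Cn F p Ω A) (hU : ContDiffOn ℝ ∞ U Ω) (a : ι) {x : E} (hx : x ∈ Ω) :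
    |dd (F.X p a) (fun y => ‖U y‖ ^ 2) x| ≤ 2 * (‖U x‖ * ‖F.D p A a U x‖) := by
  rw [dd_nsq (h.skew a x hx) (dOn h.opn hU hx), abs_mul, abs_two]
  exact mul_le_mul_of_nonneg_left (abs_real_inner_le_norm _ _) zero_le_two

theorem Sol.lap_nsq (h : Sol S p Ω A U) {x : E} (hx : x ∈ Ω) :
    ∑ a, dd (F.X p a) (dd (F.X p a) fun y => ‖U y‖ ^ 2) x =
      2 * ∑ a, ‖F.D p A a U x‖ ^ 2 + 2 * ⟪U x, F.Lap p A U x⟫ := h.cn.lap_nsq h.smU hx

theorem Sol.d_nsq (h : Sol S p Ω A U) (a : ι) {x : E} (hx : x ∈ Ω) :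
    |dd (F.X p a) (fun y => ‖U y‖ ^ 2) x| ≤ 2 * (‖U x‖ * ‖F.D p A a U x‖) := h.cn.d_nsq h.smU a hx

/-- Shi's inequality for `h = |(U, DU)|² (M + |U|²)` -/
theorem Cn.shi (h : Cn F p Ω A) (hU : ContDiffOn ℝ ∞ U Ω) {x : E} (hx : x ∈ Ω) {C R : ℝ} (hC : 0 ≤ C) (hR : ‖U x‖ ≤ R)
    (h1 : ‖F.Lap p A U x‖ ≤ C * (1 + ‖F.up p A U x‖))
    (h2 : ‖F.Lap p (fun a x => dg (A a x)) (F.up p A U) x‖ ≤
      C * (1 + ‖F.up p A U x‖ ^ 2 + ∑ a, ‖F.D p (fun a x => dg (A a x)) a (F.up p A U) x‖)) :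
    ‖F.up p A U x‖ ^ 4 - ((17 * R ^ 2 + 1) * (Fintype.card ι * C ^ 2 + 2 * C) + 2 * R ^ 2 + 2 * R * C)
        * (1 + ‖F.up p A U x‖) ^ 3 ≤
      ∑ a, dd (F.X p a) (dd (F.X p a) fun y => ‖F.up p A U y‖ ^ 2 * (16 * R ^ 2 + 1 + ‖U y‖ ^ 2)) x := by
  have hp := h.diag (κ := ι)
  have hup := h.smup hU
  have sq : ContDiffOn ℝ ∞ (fun y => ‖F.up p A U y‖ ^ 2) Ω := hup.norm_sq ℝ
  have su : ContDiffOn ℝ ∞ (fun y => 16 * R ^ 2 + 1 + ‖U y‖ ^ 2) Ω := contDiffOn_const.add (hU.norm_sq ℝ)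
  simp only [dd_dd_mul h.opn hx (sm_X h.mem _) sq su, dd_dd_const_add, dd_const_add, Finset.sum_add_distrib,
    ← Finset.mul_sum, h.lap_nsq hU hx, hp.lap_nsq hup hx]
  have ht := norm_sq_v1 (F.up p A U x)
  simp only [pr_up_none, pr_up_some] at ht
  set t := ‖F.up p A U x‖ with htd
  set u := ‖U x‖
  set ρ : ι → ℝ := fun a => ‖F.D p (fun a x => dg (A a x)) a (F.up p A U) x‖ with hρ
  set δ : ι → ℝ := fun a => ‖F.D p A a U x‖ with hδ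
  have t0 : 0 ≤ t := norm_nonneg _
  have u0 : 0 ≤ u := norm_nonneg _
  have R0 : 0 ≤ R := u0.trans hR
  have i1 : -(R * (C * (1 + t))) ≤ ⟪U x, F.Lap p A U x⟫ :=
    neg_le_of_abs_le ((abs_real_inner_le_norm _ _).trans (mul_le_mul hR h1 (norm_nonneg _) R0))
  have i2 : -(t * (C * (1 + t ^ 2 + ∑ a, ρ a))) ≤ ⟪F.up p A U x, F.Lap p (fun a x => dg (A a x)) (F.up p A U) x⟫ :=
    neg_le_of_abs_le ((abs_real_inner_le_norm _ _).trans (mul_le_mul_of_nonneg_left h2 t0))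
  have i3 : 2 * (t * C * ∑ a, ρ a) ≤ ∑ a, ρ a ^ 2 + Fintype.card ι * C ^ 2 * t ^ 2 := by
    have : ∑ a, ρ a ^ 2 + Fintype.card ι * C ^ 2 * t ^ 2 = ∑ a, (ρ a ^ 2 + C ^ 2 * t ^ 2) := by
      rw [Finset.sum_add_distrib, Finset.sum_const, Finset.card_univ, nsmul_eq_mul]; ring
    rw [this, Finset.mul_sum, Finset.mul_sum]
    exact Finset.sum_le_sum fun a _ => by nlinarith [sq_nonneg (ρ a - C * t)]
  have i4 : -(16 * R ^ 2 * ∑ a, ρ a ^ 2 + t ^ 2 * ∑ a, δ a ^ 2) ≤ 2 * ∑ a,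
      dd (F.X p a) (fun y => ‖F.up p A U y‖ ^ 2) x * dd (F.X p a) (fun y => ‖U y‖ ^ 2) x := by
    rw [Finset.mul_sum, Finset.mul_sum, Finset.mul_sum, ← Finset.sum_add_distrib, ← Finset.sum_neg_distrib]
    refine Finset.sum_le_sum fun a _ => ?_
    have b1 : |dd (F.X p a) (fun y => ‖F.up p A U y‖ ^ 2) x| ≤ 2 * (t * ρ a) := hp.d_nsq hup a hx
    have b2 : |dd (F.X p a) (fun y => ‖U y‖ ^ 2) x| ≤ 2 * (R * δ a) :=
      (h.d_nsq hU a hx).trans (by gcongr)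
    have b3 := mul_le_mul b1 b2 (abs_nonneg _) (by positivity)
    rw [← abs_mul] at b3
    have b4 := neg_le_of_abs_le b3
    nlinarith [sq_nonneg (4 * R * ρ a - t * δ a)]
  exact shi_arith t0 u0 hR hC (Nat.cast_nonneg _) (Finset.sum_nonneg fun _ _ => sq_nonneg _) ht i1 i2 i3 i4

/-- cut-off step of the maximum principle -/
theorem cut_max {X : ι → E → E} {x : E} (hΩ : IsOpen Ω) (hx : x ∈ Ω) (hX : ∀ a, ContDiffOn ℝ ∞ (X a) Ω)
    {χ g : E → ℝ} (hχ : ContDiffOn ℝ ∞ χ Ω) (hg : ContDiffOn ℝ ∞ g Ω) (h0 : χ x ≠ 0)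
    (hm : IsLocalMax (fun y => (χ y * χ y) * g y) x) :
    χ x * χ x * ∑ a, dd (X a) (dd (X a) g) x ≤
      g x * ∑ a, (8 * dd (X a) χ x ^ 2 - dd (X a) (dd (X a) fun y => χ y * χ y) x) := by
  rw [Finset.mul_sum, Finset.mul_sum]
  refine Finset.sum_le_sum fun a _ => ?_
  have hw := hχ.mul hχ
  have a1 := dd_dd_max (dOn hΩ (hX a) hx) (cAt hΩ (hw.mul hg) hx) hm
  rw [dd_dd_mul hΩ hx (hX a) hw hg] at a1
  have a2 := dd_max (X := X a) hm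
  rw [dd_mul (dOn hΩ hw hx) (dOn hΩ hg hx)] at a2
  rw [dd_mul (dOn hΩ hχ hx) (dOn hΩ hχ hx)] at a1 a2
  have a3 : χ x * dd (X a) g x = -2 * dd (X a) χ x * g x := by
    apply mul_left_cancel₀ h0; linarith
  have a4 : (dd (X a) χ x * χ x + χ x * dd (X a) χ x) * dd (X a) g x = -4 * dd (X a) χ x ^ 2 * g x := by
    have : (dd (X a) χ x * χ x + χ x * dd (X a) χ x) * dd (X a) g x
      = 2 * dd (X a) χ x * (χ x * dd (X a) g x) := by ring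
    rw [this, a3]; ring
  rw [a4] at a1
  linarith

theorem cut_bd {T : Set (P × E)} (hT : IsCompact T) (hO : T ⊆ F.O) {χ : E → ℝ} (hχ : ContDiff ℝ ∞ χ) :
    ∃ K, 0 ≤ K ∧ ∀ p x, (p, x) ∈ T →
      ∑ a, (8 * dd (F.X p a) χ x ^ 2 - dd (F.X p a) (dd (F.X p a) fun y => χ y * χ y) x) ≤ K := by
  have hw := hχ.mul hχ
  set w : E → ℝ := fun y => χ y * χ y
  have d1 : ContDiff ℝ ∞ (fderiv ℝ χ) := hχ.fderiv_right inf_add_le
  have d2 : ContDiff ℝ ∞ (fderiv ℝ w) := hw.fderiv_right inf_add_le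
  have d3 : ContDiff ℝ ∞ (fderiv ℝ (fderiv ℝ w)) := d2.fderiv_right inf_add_le
  have hc : ContDiffOn ℝ ∞ (fun z : P × E => ∑ a, (8 * (fderiv ℝ χ z.2 (F.e a z)) ^ 2
      - (fderiv ℝ (fderiv ℝ w) z.2 (F.e a z) (F.e a z)
        + fderiv ℝ w z.2 (fderiv ℝ (F.e a) z (0, F.e a z))))) F.O := by
    refine ContDiffOn.sum fun a _ => ContDiffOn.sub (contDiffOn_const.mul (ContDiffOn.pow ?_ 2))
      (ContDiffOn.add ?_ ?_)
    · exact (d1.comp contDiff_snd).contDiffOn.clm_apply (F.sme a)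
    · exact ((d3.comp contDiff_snd).contDiffOn.clm_apply (F.sme a)).clm_apply (F.sme a)
    · exact (d2.comp contDiff_snd).contDiffOn.clm_apply
        ((fd_smOn F.opn (F.sme a)).clm_apply (contDiffOn_const.prodMk (F.sme a)))
  obtain ⟨K, hK⟩ := hT.exists_bound_of_continuousOn (hc.continuousOn.mono hO)
  refine ⟨max K 0, le_max_right _ _, fun p x hx => le_trans ?_ (le_max_left _ _)⟩
  refine le_trans (le_of_eq ?_) ((le_abs_self _).trans (hK _ hx))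
  refine Finset.sum_congr rfl fun a _ => ?_
  have hX : DifferentiableAt ℝ (F.X p a) x :=
    (dOn F.opn (F.sme a) (hO hx)).comp x (by fun_prop : DifferentiableAt ℝ (fun y => (p, y)) x)
  rw [dd_dd hX hw.contDiffAt]
  have : dd (F.X p a) (F.X p a) x = fderiv ℝ (F.e a) (p, x) (0, F.e a (p, x)) := dd_par (F.sme a) (hO hx) _
  rw [this]; rfl

/-- **Bernstein–Shi estimate** with a cut-off, for any section with the two pointwise bounds -/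
theorem bern1_of {K : Set P} (hK : IsCompact K) {χ : E → ℝ}
    (hχ : ContDiff ℝ ∞ χ) (hc : HasCompactSupport χ) (h1 : ∀ x, |χ x| ≤ 1) (hO : K ×ˢ tsupport χ ⊆ F.O)
    {C : ℝ} (hC : 0 ≤ C) (R : ℝ) :
    ∃ C', ∀ p ∈ K, ∀ Ω (A : ι → E → V →L[ℝ] V) U, Cn F p Ω A → ContDiffOn ℝ ∞ U Ω → tsupport χ ⊆ Ω →
      (∀ x ∈ tsupport χ, ‖U x‖ ≤ R ∧ ‖F.Lap p A U x‖ ≤ C * (1 + ‖F.up p A U x‖) ∧
        ‖F.Lap p (fun a x => dg (A a x)) (F.up p A U) x‖ ≤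
          C * (1 + ‖F.up p A U x‖ ^ 2 + ∑ a, ‖F.D p (fun a x => dg (A a x)) a (F.up p A U) x‖)) →
      ∀ x ∈ tsupport χ, |χ x| * ‖F.up p A U x‖ ≤ C' := by
  have hT := hK.prod hc
  obtain ⟨Kχ, hKχ, HK⟩ := cut_bd hT hO hχ
  set K1 := (17 * |R| ^ 2 + 1) * (Fintype.card ι * C ^ 2 + 2 * C) + 2 * |R| ^ 2 + 2 * |R| * C with hK1
  have K10 : 0 ≤ K1 := by positivity
  set B := 17 * |R| ^ 2 + 1
  have B1 : 1 ≤ B := by have := sq_nonneg |R|; simp only [B]; linarith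
  set s0 := 1 + 8 * K1 + B * Kχ
  have s00 : 0 ≤ s0 := by positivity
  refine ⟨s0 * B, fun p hp Ω A U h hU hΩ hR x hx => ?_⟩
  set g : E → ℝ := fun y => ‖F.up p A U y‖ ^ 2 * (16 * |R| ^ 2 + 1 + ‖U y‖ ^ 2) with hg
  have sg : ContDiffOn ℝ ∞ g Ω := ((h.smup hU).norm_sq ℝ).mul (contDiffOn_const.add (hU.norm_sq ℝ))
  have sχ : ContDiffOn ℝ ∞ χ Ω := hχ.contDiffOn
  obtain ⟨x1, hx1, hmax⟩ := IsCompact.exists_isMaxOn hc ⟨x, hx⟩
    (((sχ.mul sχ).mul sg).continuousOn.mono hΩ)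
  have hR1 : ‖U x1‖ ≤ |R| := (hR x1 hx1).1.trans (le_abs_self _)
  have gB : g x1 ≤ ‖F.up p A U x1‖ ^ 2 * B := by
    have : ‖U x1‖ ^ 2 ≤ |R| ^ 2 := by gcongr
    exact mul_le_mul_of_nonneg_left (by simp only [B]; linarith) (sq_nonneg _)
  have key : |χ x1| * ‖F.up p A U x1‖ ≤ s0 := by
    by_cases h0 : χ x1 = 0
    · rw [h0]; simpa using s00
    have hnb : tsupport χ ∈ 𝓝 x1 :=
      mem_of_superset ((hχ.continuous.isOpen_support).mem_nhds h0) (subset_tsupport _)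
    have hm := cut_max h.opn (hΩ hx1) (sm_X (F := F) h.mem) sχ sg h0 (hmax.isLocalMax hnb)
    obtain ⟨b1, b2⟩ := (hR x1 hx1).2
    have hs := h.shi hU (hΩ hx1) hC hR1 b1 b2
    have hk := HK p x1 ⟨hp, hx1⟩
    have g0 : 0 ≤ g x1 := by positivity
    set t := ‖F.up p A U x1‖
    have t0 : 0 ≤ t := norm_nonneg _
    set c := |χ x1| with hcd
    have c0 : 0 ≤ c := abs_nonneg _
    have c1 : c ≤ 1 := h1 x1
    have cc : χ x1 * χ x1 = c ^ 2 := by rw [hcd, sq_abs, sq]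
    rw [cc] at hm
    have e1 : c ^ 2 * (t ^ 4 - K1 * (1 + t) ^ 3) ≤ t ^ 2 * B * Kχ :=
      (mul_le_mul_of_nonneg_left hs (sq_nonneg c)).trans (hm.trans
        ((mul_le_mul_of_nonneg_left hk g0).trans (mul_le_mul_of_nonneg_right gB hKχ)))
    refine poly_bd K10 (by positivity) ?_
    have e2 : c ^ 4 * (1 + t) ^ 3 ≤ (1 + c * t) ^ 3 := by
      calc c ^ 4 * (1 + t) ^ 3 = c * (c + c * t) ^ 3 := by ring
        _ ≤ 1 * (1 + c * t) ^ 3 := by gcongr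
        _ = _ := one_mul _
    nlinarith [mul_le_mul_of_nonneg_left e1 (sq_nonneg c), mul_le_mul_of_nonneg_left e2 K10]
  have a1 : χ x * χ x * g x ≤ χ x1 * χ x1 * g x1 := hmax hx
  have a2 : (|χ x| * ‖F.up p A U x‖) ^ 2 ≤ χ x * χ x * g x := by
    rw [mul_pow, sq_abs, sq (χ x)]
    refine mul_le_mul_of_nonneg_left ?_ (mul_self_nonneg _)
    refine le_mul_of_one_le_right (sq_nonneg _) ?_
    have := sq_nonneg |R|; have := sq_nonneg ‖U x‖; linarith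
  have a3 : χ x1 * χ x1 * g x1 ≤ (s0 * B) ^ 2 := by
    calc χ x1 * χ x1 * g x1 ≤ χ x1 * χ x1 * (‖F.up p A U x1‖ ^ 2 * B) :=
          mul_le_mul_of_nonneg_left gB (mul_self_nonneg _)
      _ = (|χ x1| * ‖F.up p A U x1‖) ^ 2 * B := by rw [mul_pow, sq_abs]; ring
      _ ≤ s0 ^ 2 * B ^ 2 := by gcongr; nlinarith
      _ = _ := by ring
  exact (abs_le_of_sq_le_sq' (a2.trans (a1.trans a3)) (by positivity)).2

/-- **Bernstein–Shi estimate** with a cut-off -/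
theorem Sys.bern1 [FiniteDimensional ℝ V] (S : Sys F V) {K : Set P} (hK : IsCompact K) {χ : E → ℝ}
    (hχ : ContDiff ℝ ∞ χ) (hc : HasCompactSupport χ) (h1 : ∀ x, |χ x| ≤ 1) (hO : K ×ˢ tsupport χ ⊆ F.O) (R : ℝ) :
    ∃ C, ∀ p ∈ K, ∀ Ω A U, Sol S p Ω A U → tsupport χ ⊆ Ω → (∀ x ∈ tsupport χ, ‖U x‖ ≤ R) →
      ∀ x ∈ tsupport χ, |χ x| * ‖F.up p A U x‖ ≤ C := by
  obtain ⟨C, hC, HC⟩ := S.lap_bd (hK.prod hc) hO R
  obtain ⟨C', H⟩ := bern1_of (V := V) hK hχ hc h1 hO hC R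
  exact ⟨C', fun p hp Ω A U h hΩ hR => H p hp Ω A U h.cn h.smU hΩ fun x hx =>
    ⟨hR x hx, HC p Ω A U h x (hΩ hx) ⟨hp, hx⟩ (hR x hx)⟩⟩

end one

universe u

/-- **all covariant derivatives of a bounded solution are bounded on smaller balls** -/
theorem bern [FiniteDimensional ℝ E] {K : Set P} (hK : IsCompact K) (x₀ : E) (k : ℕ) :
    ∀ {V : Type u} [NormedAddCommGroup V] [InnerProductSpace ℝ V] [FiniteDimensional ℝ V] (S : Sys F V)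
      {r r' : ℝ}, 0 < r → r < r' → K ×ˢ Metric.closedBall x₀ r' ⊆ F.O → ∀ R : ℝ,
      ∃ C, ∀ p ∈ K, ∀ Ω A U, Sol S p Ω A U → Metric.closedBall x₀ r' ⊆ Ω →
        (∀ x ∈ Metric.closedBall x₀ r', ‖U x‖ ≤ R) →
        ∀ l : List ι, l.length ≤ k → ∀ x ∈ Metric.closedBall x₀ r, ‖F.Dl p A l U x‖ ≤ C := by
  induction k with
  | zero =>
    intro V _ _ _ S r r' _ hr _ R
    refine ⟨R, fun p _ Ω A U _ _ hR l hl x hx => ?_⟩
    obtain rfl : l = [] := List.length_eq_zero_iff.1 (Nat.le_zero.1 hl)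
    exact hR x (Metric.closedBall_subset_closedBall hr.le hx)
  | succ k ih =>
    intro V _ _ _ S r r' h0 hr hO R
    let χ : ContDiffBump x₀ := ⟨(r + r') / 2, r', by linarith, by linarith⟩
    have ts : tsupport χ = Metric.closedBall x₀ r' := χ.tsupport_eq
    have sub : Metric.closedBall x₀ ((r + r') / 2) ⊆ Metric.closedBall x₀ r' :=
      Metric.closedBall_subset_closedBall (by linarith)
    obtain ⟨C1, H1⟩ := S.bern1 hK χ.contDiff χ.hasCompactSupport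
      (fun x => by rw [abs_of_nonneg χ.nonneg]; exact χ.le_one) (by rwa [ts]) R
    obtain ⟨C, H⟩ := ih S.pro h0 (show r < (r + r') / 2 by linarith) ((prod_mono subset_rfl sub).trans hO) C1
    refine ⟨C, fun p hp Ω A U h hΩ hR l hl x hx => ?_⟩
    have hup : ∀ x ∈ Metric.closedBall x₀ ((r + r') / 2), ‖F.up p A U x‖ ≤ C1 := fun x hx => by
      have := H1 p hp Ω A U h (by rwa [ts]) (by rwa [ts]) x (by rw [ts]; exact sub hx)
      rwa [χ.one_of_mem_closedBall hx, abs_one, one_mul] at this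
    have H' := H p hp Ω _ _ h.pro (sub.trans hΩ) hup
    have hxΩ : x ∈ Ω := hΩ (Metric.closedBall_subset_closedBall hr.le hx)
    rcases List.eq_nil_or_concat l with rfl | ⟨l', a, rfl⟩
    · exact (norm_pr_le none (F.up p A U x)).trans (H' [] (by simp) x hx)
    · have hl' : l'.length ≤ k := by simpa using hl
      refine le_trans (le_of_eq ?_) ((norm_pr_le (some a) _).trans (H' l' hl' x hx))
      rw [pr_Dl h.opn h.mem h.smA (some a) h.pro.smU l' hxΩ, List.concat_eq_append, Dl_append]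
      rfl

end

end Crest.Agent.X212.Bern84
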