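import Crest.Agent.X212.Bern84.Bern
import Crest.Agent.X212.Cyc79.Bd

/-!
# BERN (helper84): the all order estimate for any inner product fibre (`Cyc79.Bd`); divergence form
-/

set_option autoImplicit false
set_option linter.unusedSectionVars false
set_option linter.deprecated false
open scoped ContDiff Topology RealInnerProductSpace
open Set Filter

namespace Crest.Agent.X212.Bern84
open Cyc79 (BB Bd bb_const bb_fst bb_snd)

noncomputable section

variable {P E ι : Type} [NormedAddCommGroup P] [NormedSpace ℝ P] [NormedAddCommGroup E]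
  [NormedSpace ℝ E] [Fintype ι] {F : Fm P E ι}

/-- a bump function for two radii -/
theorem exists_cut [FiniteDimensional ℝ E] (x₀ : E) {r r' : ℝ} (h0 : 0 < r) (hr : r < r') :
    ∃ χ : E → ℝ, ContDiff ℝ ∞ χ ∧ HasCompactSupport χ ∧ (∀ x, |χ x| ≤ 1) ∧
      tsupport χ = Metric.closedBall x₀ r' ∧ ∀ x ∈ Metric.closedBall x₀ r, χ x = 1 := by
  let χ : ContDiffBump x₀ := ⟨r, r', h0, hr⟩
  exact ⟨χ, χ.contDiff, χ.hasCompactSupport, fun x => by rw [abs_of_nonneg χ.nonneg]; exact χ.le_one,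
    χ.tsupport_eq, fun x hx => χ.one_of_mem_closedBall hx⟩

/-- **all covariant derivatives of a bounded solution are bounded on smaller balls** -/
theorem bernB [FiniteDimensional ℝ E] {K : Set P} (hK : IsCompact K) (x₀ : E) (k : ℕ) :
    ∀ {V : Type} [NormedAddCommGroup V] [InnerProductSpace ℝ V] {S : Sys F V}, Bd S → ∀
      {r r' : ℝ}, 0 < r → r < r' → K ×ˢ Metric.closedBall x₀ r' ⊆ F.O → ∀ R : ℝ,
      ∃ C, ∀ p ∈ K, ∀ Ω A U, Sol S p Ω A U → Metric.closedBall x₀ r' ⊆ Ω →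
        (∀ x ∈ Metric.closedBall x₀ r', ‖U x‖ ≤ R) →
        ∀ l : List ι, l.length ≤ k → ∀ x ∈ Metric.closedBall x₀ r, ‖F.Dl p A l U x‖ ≤ C := by
  induction k with
  | zero =>
    intro V _ _ S _ r r' _ hr _ R
    refine ⟨R, fun p _ Ω A U _ _ hR l hl x hx => ?_⟩
    obtain rfl : l = [] := List.length_eq_zero_iff.1 (Nat.le_zero.1 hl)
    exact hR x (Metric.closedBall_subset_closedBall hr.le hx)
  | succ k ih =>
    intro V _ _ S hS r r' h0 hr hO R
    obtain ⟨χ, c1, c2, c3, ts, c4⟩ := exists_cut x₀ (show 0 < (r + r') / 2 by linarith)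
      (show (r + r') / 2 < r' by linarith)
    have sub : Metric.closedBall x₀ ((r + r') / 2) ⊆ Metric.closedBall x₀ r' :=
      Metric.closedBall_subset_closedBall (by linarith)
    rw [← ts] at hO
    obtain ⟨C0, hC0, H0⟩ := hS.lap_bd (hK.prod c2) hO R
    obtain ⟨C1, H1⟩ := bern1_of (V := V) hK c1 c2 c3 hO hC0 R
    rw [ts] at hO H0 H1
    obtain ⟨C, H⟩ := ih hS.pro h0 (show r < (r + r') / 2 by linarith) ((prod_mono subset_rfl sub).trans hO) C1
    refine ⟨C, fun p hp Ω A U h hΩ hR l hl x hx => ?_⟩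
    have hup : ∀ x ∈ Metric.closedBall x₀ ((r + r') / 2), ‖F.up p A U x‖ ≤ C1 := fun x hx => by
      have := H1 p hp Ω A U h.cn h.smU hΩ
        (fun x hx => ⟨hR x hx, H0 p Ω A U h x (hΩ hx) ⟨hp, hx⟩ (hR x hx)⟩) x (sub hx)
      rwa [c4 x hx, abs_one, one_mul] at this
    have H' := H p hp Ω _ _ h.pro (sub.trans hΩ) hup
    have hxΩ : x ∈ Ω := hΩ (Metric.closedBall_subset_closedBall hr.le hx)
    rcases List.eq_nil_or_concat l with rfl | ⟨l', a, rfl⟩
    · exact (norm_pr_le none (F.up p A U x)).trans (H' [] (by simp) x hx)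
    · have hl' : l'.length ≤ k := by simpa using hl
      refine le_trans (le_of_eq ?_) ((norm_pr_le (some a) _).trans (H' l' hl' x hx))
      rw [pr_Dl h.opn h.mem h.smA (some a) h.pro.smU l' hxΩ, List.concat_eq_append, Dl_append]
      rfl

namespace Sys

variable {V : Type} [NormedAddCommGroup V] [NormedSpace ℝ V] (S : Sys F V)

/-- smooth equivariant vector valued coefficient -/
structure EV (H : (P × E) × V → V) : Prop where
  bb : BB F.O H
  eq : ∀ z ∈ F.O, ∀ g ∈ S.Γ z, ∀ v, H (z, g v) = g (H (z, v))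

/-- replace the zero order term -/
def withQ {H : (P × E) × V → V} (h : S.EV H) : Sys F V := { S with Q := H, smQ := h.bb.sm, eqQ := h.eq }

/-- covariant derivative of `H (z, U)` -/
def nH (H : (P × E) × V → V) (a : ι) (z : P × E) (v w : V) : V := S.raw H a z v w + S.W a z (H (z, v))

theorem nH_split (H : (P × E) × V → V) (a : ι) (z : P × E) (v w : V) :
    S.nH H a z v w = (fderiv ℝ H (z, v) ∘L ContinuousLinearMap.inr ℝ (P × E) V) w + S.nH H a z v 0 := by
  unfold nH raw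
  rw [← add_assoc, ContinuousLinearMap.comp_apply, ← map_add]
  congr 2
  simp [sub_eq_add_neg]

variable {S}

theorem EV.eq_nH {H : (P × E) × V → V} (h : S.EV H) (a : ι) {z : P × E} (hz : z ∈ F.O) {g : V →L[ℝ] V}
    (hg : g ∈ S.Γ z) (v w : V) : S.nH H a z (g v) (g w) = g (S.nH H a z v w) :=
  (S.withQ h).eq_nQ a hz hg v w

theorem EV.D {H : (P × E) × V → V} (h : S.EV H) {p : P} {A : ι → E → V →L[ℝ] V} {U : E → V} (a : ι) {x : E}
    (hx : (p, x) ∈ F.O) (ht : Tan (S.Γ (p, x)) (A a x - S.W a (p, x))) (hU : DifferentiableAt ℝ U x) :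
    F.D p A a (fun y => H ((p, y), U y)) x = S.nH H a (p, x) (U x) (F.D p A a U x) := by
  have e : fderiv ℝ H ((p, x), U x) (0, (A a x - S.W a (p, x)) (U x)) = (A a x - S.W a (p, x)) (H ((p, x), U x)) :=
    (S.withQ h).tan_vec hx ht (U x)
  rw [Fm.D, cd_eq, dd_coef h.bb.sm hx hU, Fm.X, S.raw_split _ a _ _ _ (A a x), e, nH, ← cd_eq, Fm.D]
  simp only [ContinuousLinearMap.sub_apply]
  abel

theorem bb_nH0 {H : (P × E) × V → V} (h : BB F.O H) (a : ι) : BB F.O fun q => S.nH H a q.1 q.2 0 :=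
  (h.fd.app (((bb_const (0 : P)).prod (bb_fst F.opn (F.sme a))).prod
    ((bb_const (0 : V)).sub ((bb_fst F.opn (S.smW a)).app (bb_snd (ContinuousLinearMap.id ℝ V)))))).add
    ((bb_fst F.opn (S.smW a)).app h)

variable (S)

/-- the system `Lap U = ∑ D_m (H m (z, U)) + ∑ L_m D_m U + Q` -/
def addDiv (hS : Bd S) {H : ι → (P × E) × V → V} (h : ∀ m, S.EV (H m)) : Sys F V :=
  { S with
    L := fun m q => fderiv ℝ (H m) q ∘L ContinuousLinearMap.inr ℝ (P × E) V + S.L m q
    Q := fun q => ∑ m, S.nH (H m) m q.1 q.2 0 + S.Q q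
    smL := fun m => (((h m).bb.fd.comp (bb_const _)).add (hS.L m)).sm
    smQ := ((BB.sum fun m => bb_nH0 (h m).bb m).add hS.Q).sm
    eqL := fun m z hz g hg v => by
      ext1 y
      have e1 := (h m).eq_nH m hz hg v y
      have e2 := (h m).eq_nH m hz hg v 0
      rw [map_zero] at e2
      rw [nH_split, nH_split S (H m) m z v y, e2, map_add, add_left_inj] at e1
      simp only [ContinuousLinearMap.mul_apply, ContinuousLinearMap.add_apply, map_add, e1,
        app_of_mul (S.eqL m z hz g hg v)]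
    eqQ := fun z hz g hg v => by
      have e2 := fun m => (h m).eq_nH m hz hg v 0
      simp only [map_zero] at e2
      simp only [e2, map_add, map_sum, S.eqQ z hz g hg] }

theorem bd_addDiv (hS : Bd S) {H : ι → (P × E) × V → V} (h : ∀ m, S.EV (H m)) : Bd (S.addDiv hS h) where
  L m := ((h m).bb.fd.comp (bb_const _)).add (hS.L m)
  Q := (BB.sum fun m => bb_nH0 (h m).bb m).add hS.Q
  Φ := hS.Φ

end Sys

theorem sol_addDiv {V : Type} [NormedAddCommGroup V] [InnerProductSpace ℝ V] {S : Sys F V} (hS : Bd S)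
    {H : ι → (P × E) × V → V} (h : ∀ m, S.EV (H m)) {p : P} {Ω : Set E} {A : ι → E → V →L[ℝ] V} {U : E → V}
    (hc : Cn F p Ω A) (hU : ContDiffOn ℝ ∞ U Ω)
    (ht : ∀ a, ∀ x ∈ Ω, Tan (S.Γ (p, x)) (A a x - S.W a (p, x)))
    (hk : ∀ a b, ∀ x ∈ Ω, F.curv p A a b x = S.Φ a b ((p, x), U x))
    (he : ∀ x ∈ Ω, F.Lap p A U x = ∑ m, F.D p A m (fun y => H m ((p, y), U y)) x
      + ∑ a, S.L a ((p, x), U x) (F.D p A a U x) + S.Q ((p, x), U x)) :
    Sol (S.addDiv hS h) p Ω A U where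
  opn := hc.opn
  mem := hc.mem
  smA := hc.smA
  smU := hU
  skew := hc.skew
  tan := ht
  curv := hk
  eqn x hx := by
    rw [he x hx, Finset.sum_congr rfl fun m _ =>
      ((h m).D m (hc.mem x hx) (ht m x hx) (dOn hc.opn hU hx)).trans (S.nH_split _ _ _ _ _)]
    simp only [Sys.addDiv, Finset.sum_add_distrib, ContinuousLinearMap.add_apply]
    abel

end

end Crest.Agent.X212.Bern84
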