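import Crest.Agent.X212.Bern84.Defs

/-!
# BERN (helper84): calculus of `dd`, `cd`; commutator; maximum principle
-/

set_option autoImplicit false
set_option linter.unusedSectionVars false
set_option linter.deprecated false
open scoped ContDiff Topology RealInnerProductSpace
open Set Filter

namespace Crest.Agent.X212.Bern84

noncomputable section

variable {E G G' G'' : Type*} [NormedAddCommGroup E] [NormedSpace ℝ E] [NormedAddCommGroup G] [NormedSpace ℝ G]
  [NormedAddCommGroup G'] [NormedSpace ℝ G'] [NormedAddCommGroup G''] [NormedSpace ℝ G'']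

theorem inf_ne : (∞ : WithTop ℕ∞) ≠ 0 := by simp

theorem two_le_inf : (2 : WithTop ℕ∞) ≤ ∞ := WithTop.coe_le_coe.2 (le_top (a := (2 : ℕ∞)))

theorem inf_add_le : (∞ : WithTop ℕ∞) + 1 ≤ ∞ := le_of_eq rfl

theorem dAt {f : E → G} {x : E} (h : ContDiffAt ℝ ∞ f x) : DifferentiableAt ℝ f x := h.differentiableAt inf_ne

theorem cAt {f : E → G} {Ω : Set E} (hΩ : IsOpen Ω) (h : ContDiffOn ℝ ∞ f Ω) {x : E} (hx : x ∈ Ω) :
    ContDiffAt ℝ ∞ f x := h.contDiffAt (hΩ.mem_nhds hx)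

theorem dOn {f : E → G} {Ω : Set E} (hΩ : IsOpen Ω) (h : ContDiffOn ℝ ∞ f Ω) {x : E} (hx : x ∈ Ω) :
    DifferentiableAt ℝ f x := dAt (cAt hΩ h hx)

theorem fd_sm {f : E → G} {x : E} (h : ContDiffAt ℝ ∞ f x) : ContDiffAt ℝ ∞ (fderiv ℝ f) x :=
  h.fderiv_right inf_add_le

theorem fd_smOn {f : E → G} {Ω : Set E} (hΩ : IsOpen Ω) (h : ContDiffOn ℝ ∞ f Ω) :
    ContDiffOn ℝ ∞ (fderiv ℝ f) Ω := fun _ hx => (fd_sm (cAt hΩ h hx)).contDiffWithinAt

theorem evEq {f g : E → G} {Ω : Set E} (hΩ : IsOpen Ω) (h : ∀ y ∈ Ω, f y = g y) {x : E} (hx : x ∈ Ω) :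
    f =ᶠ[𝓝 x] g := Filter.eventuallyEq_of_mem (hΩ.mem_nhds hx) h

variable {X Y : E → E} {x : E}

theorem cd_eq (A : E → G →L[ℝ] G) (s : E → G) : cd X A s x = dd X s x + A x (s x) := rfl

theorem dd_sm {f : E → G} (hX : ContDiffAt ℝ ∞ X x) (hf : ContDiffAt ℝ ∞ f x) : ContDiffAt ℝ ∞ (dd X f) x :=
  (fd_sm hf).clm_apply hX

theorem cd_sm {A : E → G →L[ℝ] G} {s : E → G} (hX : ContDiffAt ℝ ∞ X x) (hA : ContDiffAt ℝ ∞ A x)
    (hs : ContDiffAt ℝ ∞ s x) : ContDiffAt ℝ ∞ (cd X A s) x :=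
  ((fd_sm hs).clm_apply hX).add (hA.clm_apply hs)

theorem dd_smOn {f : E → G} {Ω : Set E} (hΩ : IsOpen Ω) (hX : ContDiffOn ℝ ∞ X Ω) (hf : ContDiffOn ℝ ∞ f Ω) :
    ContDiffOn ℝ ∞ (dd X f) Ω := fun _ hx => (dd_sm (cAt hΩ hX hx) (cAt hΩ hf hx)).contDiffWithinAt

theorem cd_smOn {A : E → G →L[ℝ] G} {s : E → G} {Ω : Set E} (hΩ : IsOpen Ω) (hX : ContDiffOn ℝ ∞ X Ω)
    (hA : ContDiffOn ℝ ∞ A Ω) (hs : ContDiffOn ℝ ∞ s Ω) : ContDiffOn ℝ ∞ (cd X A s) Ω :=
  fun _ hx => (cd_sm (cAt hΩ hX hx) (cAt hΩ hA hx) (cAt hΩ hs hx)).contDiffWithinAt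

theorem dd_congr {f g : E → G} (h : f =ᶠ[𝓝 x] g) : dd X f x = dd X g x := by
  unfold dd; rw [h.fderiv_eq]

theorem cd_congr {A : E → G →L[ℝ] G} {f g : E → G} (h : f =ᶠ[𝓝 x] g) : cd X A f x = cd X A g x := by
  unfold cd; rw [h.fderiv_eq, h.eq_of_nhds]

theorem dd_const (c : G) : dd X (fun _ => c) x = 0 := by simp [dd]

theorem dd_add {f g : E → G} (hf : DifferentiableAt ℝ f x) (hg : DifferentiableAt ℝ g x) :
    dd X (fun y => f y + g y) x = dd X f x + dd X g x := by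
  unfold dd; rw [fderiv_fun_add hf hg]; rfl

theorem dd_sub {f g : E → G} (hf : DifferentiableAt ℝ f x) (hg : DifferentiableAt ℝ g x) :
    dd X (fun y => f y - g y) x = dd X f x - dd X g x := by
  unfold dd; rw [fderiv_fun_sub hf hg]; rfl

theorem dd_sum {κ : Type*} (t : Finset κ) {f : κ → E → G} (hf : ∀ i ∈ t, DifferentiableAt ℝ (f i) x) :
    dd X (fun y => ∑ i ∈ t, f i y) x = ∑ i ∈ t, dd X (f i) x := by
  unfold dd; rw [fderiv_fun_sum hf]; simp

theorem dd_clm (T : G →L[ℝ] G') {f : E → G} (hf : DifferentiableAt ℝ f x) :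
    dd X (fun y => T (f y)) x = T (dd X f x) := by
  unfold dd
  have := (T.hasFDerivAt.comp x hf.hasFDerivAt).fderiv
  rw [show (fun y => T (f y)) = T ∘ f from rfl, this]; rfl

theorem dd_app {T : E → G →L[ℝ] G'} {s : E → G} (hT : DifferentiableAt ℝ T x) (hs : DifferentiableAt ℝ s x) :
    dd X (fun y => T y (s y)) x = dd X T x (s x) + T x (dd X s x) := by
  unfold dd; rw [fderiv_clm_apply hT hs]; simp [add_comm]

theorem dd_smul {f : E → ℝ} {s : E → G} (hf : DifferentiableAt ℝ f x) (hs : DifferentiableAt ℝ s x) :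
    dd X (fun y => f y • s y) x = dd X f x • s x + f x • dd X s x := by
  unfold dd; rw [fderiv_fun_smul hf hs]; simp [add_comm]

theorem dd_mul {f g : E → ℝ} (hf : DifferentiableAt ℝ f x) (hg : DifferentiableAt ℝ g x) :
    dd X (fun y => f y * g y) x = dd X f x * g x + f x * dd X g x := dd_smul hf hg

theorem dd_comp {f : G → G'} {s : E → G} (hf : DifferentiableAt ℝ f (s x)) (hs : DifferentiableAt ℝ s x) :
    dd X (fun y => f (s y)) x = fderiv ℝ f (s x) (dd X s x) := by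
  unfold dd
  rw [show (fun y => f (s y)) = f ∘ s from rfl, fderiv_comp x hf hs]; rfl

theorem dd_prod {f : E → G} {g : E → G'} (hf : DifferentiableAt ℝ f x) (hg : DifferentiableAt ℝ g x) :
    dd X (fun y => (f y, g y)) x = (dd X f x, dd X g x) := by
  unfold dd; rw [hf.fderiv_prodMk hg]; rfl

theorem dd_id : dd X (fun y => y) x = X x := by simp [dd]

theorem cd_add {A : E → G →L[ℝ] G} {f g : E → G} (hf : DifferentiableAt ℝ f x) (hg : DifferentiableAt ℝ g x) :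
    cd X A (fun y => f y + g y) x = cd X A f x + cd X A g x := by
  simp only [cd_eq, dd_add hf hg, map_add]; abel

theorem cd_sum {κ : Type*} (t : Finset κ) {A : E → G →L[ℝ] G} {f : κ → E → G}
    (hf : ∀ i ∈ t, DifferentiableAt ℝ (f i) x) :
    cd X A (fun y => ∑ i ∈ t, f i y) x = ∑ i ∈ t, cd X A (f i) x := by
  simp only [cd_eq, dd_sum t hf, map_sum, Finset.sum_add_distrib]

theorem cd_smul {A : E → G →L[ℝ] G} {f : E → ℝ} {s : E → G} (hf : DifferentiableAt ℝ f x)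
    (hs : DifferentiableAt ℝ s x) : cd X A (fun y => f y • s y) x = dd X f x • s x + f x • cd X A s x := by
  simp only [cd_eq, dd_smul hf hs, map_smul, smul_add]; abel

/-- Leibniz rule for an operator field acting on a section -/
theorem cd_app {A : E → G →L[ℝ] G} {B : E → G' →L[ℝ] G'} {T : E → G →L[ℝ] G'} {s : E → G}
    (hT : DifferentiableAt ℝ T x) (hs : DifferentiableAt ℝ s x) :
    cd X B (fun y => T y (s y)) x = (dd X T x + B x ∘L T x - T x ∘L A x) (s x) + T x (cd X A s x) := by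
  simp only [cd_eq, dd_app hT hs, map_add, ContinuousLinearMap.add_apply, ContinuousLinearMap.sub_apply,
    ContinuousLinearMap.comp_apply]; abel

theorem dd_dd {f : E → G} (hY : DifferentiableAt ℝ Y x) (hf : ContDiffAt ℝ ∞ f x) :
    dd X (dd Y f) x = fderiv ℝ (fderiv ℝ f) x (X x) (Y x) + fderiv ℝ f x (dd X Y x) :=
  dd_app (T := fderiv ℝ f) (dAt (fd_sm hf)) hY

theorem dd_comm {f : E → G} (hX : DifferentiableAt ℝ X x) (hY : DifferentiableAt ℝ Y x)
    (hf : ContDiffAt ℝ ∞ f x) :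
    dd X (dd Y f) x - dd Y (dd X f) x = fderiv ℝ f x (dd X Y x - dd Y X x) := by
  rw [dd_dd hY hf, dd_dd hX hf, map_sub,
    ((hf.of_le two_le_inf).isSymmSndFDerivAt (by simp)).eq (X x) (Y x)]
  abel

/-- the commutator of two covariant derivatives -/
theorem cd_comm {A B : E → G →L[ℝ] G} {s : E → G} (hX : DifferentiableAt ℝ X x) (hY : DifferentiableAt ℝ Y x)
    (hA : DifferentiableAt ℝ A x) (hB : DifferentiableAt ℝ B x) (hs : ContDiffAt ℝ ∞ s x) :
    cd X A (cd Y B s) x - cd Y B (cd X A s) x = fderiv ℝ s x (dd X Y x - dd Y X x)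
      + (dd X B x - dd Y A x + A x * B x - B x * A x) (s x) := by
  have h1 : DifferentiableAt ℝ (dd Y s) x := (dAt (fd_sm hs)).clm_apply hY
  have h2 : DifferentiableAt ℝ (dd X s) x := (dAt (fd_sm hs)).clm_apply hX
  have e1 : dd X (cd Y B s) x = dd X (dd Y s) x + (dd X B x (s x) + B x (dd X s x)) := by
    rw [← dd_app hB (dAt hs), ← dd_add h1 (hB.clm_apply (dAt hs))]; rfl
  have e2 : dd Y (cd X A s) x = dd Y (dd X s) x + (dd Y A x (s x) + A x (dd Y s x)) := by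
    rw [← dd_app hA (dAt hs), ← dd_add h2 (hA.clm_apply (dAt hs))]; rfl
  rw [← dd_comm hX hY hs]
  simp only [cd_eq, e1, e2, map_add, ContinuousLinearMap.add_apply, ContinuousLinearMap.sub_apply,
    ContinuousLinearMap.mul_apply]
  abel

theorem deriv2_nonpos {g : ℝ → ℝ} (hc : ContinuousAt g 0) (hm : IsLocalMax g 0) : deriv (deriv g) 0 ≤ 0 := by
  by_contra h
  rw [not_le] at h
  have h0 : deriv g 0 = 0 := hm.deriv_eq_zero
  have hmin := isLocalMin_of_deriv_deriv_pos h h0 hc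
  have hconst : g =ᶠ[𝓝 0] fun _ => g 0 := by
    filter_upwards [hm, hmin] with t h1 h2 using le_antisymm h1 h2
  have : deriv g =ᶠ[𝓝 0] fun _ => (0 : ℝ) := by
    filter_upwards [hconst.deriv] with t ht
    rw [ht]; simp
  rw [this.deriv_eq] at h
  simp at h

/-- maximum principle: first order -/
theorem dd_max {f : E → ℝ} (hm : IsLocalMax f x) : dd X f x = 0 := by
  unfold dd; rw [hm.fderiv_eq_zero]; rfl

/-- maximum principle: second order -/
theorem dd_dd_max {f : E → ℝ} (hX : DifferentiableAt ℝ X x) (hf : ContDiffAt ℝ ∞ f x) (hm : IsLocalMax f x) :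
    dd X (dd X f) x ≤ 0 := by
  rw [dd_dd hX hf, hm.fderiv_eq_zero]
  simp only [ContinuousLinearMap.zero_apply, add_zero]
  set v := X x
  let l : ℝ → E := fun t => x + t • v
  have hl : ∀ t, HasDerivAt l v t := fun t => by
    have := ((hasDerivAt_id t).smul_const v).const_add x
    rwa [one_smul] at this
  have l0 : l 0 = x := by simp [l]
  have hlc : Tendsto l (𝓝 0) (𝓝 x) := by
    have := (hl 0).continuousAt; rwa [ContinuousAt, l0] at this
  have hm' : IsLocalMax (f ∘ l) 0 := by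
    have : IsLocalMax f (l 0) := by rwa [l0]
    exact this.comp_continuous (hl 0).continuousAt
  have hc : ContinuousAt (f ∘ l) 0 := by
    have : ContinuousAt f (l 0) := by rw [l0]; exact hf.continuousAt
    exact this.comp (hl 0).continuousAt
  have hev : ∀ᶠ y in 𝓝 x, DifferentiableAt ℝ f y := by
    filter_upwards [(hf.of_le two_le_inf).eventually (by simp)] with y hy
    exact hy.differentiableAt (by simp)
  have h1 : deriv (f ∘ l) =ᶠ[𝓝 0] fun t => fderiv ℝ f (l t) v := by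
    filter_upwards [hlc.eventually hev] with t ht
    exact (ht.hasFDerivAt.comp_hasDerivAt t (hl t)).deriv
  have h2 : HasDerivAt (fun t => fderiv ℝ f (l t) v) (fderiv ℝ (fderiv ℝ f) x v v) 0 := by
    have a : HasFDerivAt (fderiv ℝ f) (fderiv ℝ (fderiv ℝ f) x) (l 0) := by
      rw [l0]; exact (dAt (fd_sm hf)).hasFDerivAt
    have b := a.comp_hasDerivAt (0 : ℝ) (hl 0)
    simpa using b.clm_apply (hasDerivAt_const (0 : ℝ) v)
  have := deriv2_nonpos hc hm'
  rwa [h1.deriv_eq, h2.deriv] at this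

section inner

variable {V : Type*} [NormedAddCommGroup V] [InnerProductSpace ℝ V]

theorem skew_pol {A : V →L[ℝ] V} (h : ∀ v, ⟪A v, v⟫ = 0) (v w : V) : ⟪A v, w⟫ + ⟪v, A w⟫ = 0 := by
  have := h (v + w)
  rw [map_add, inner_add_left, inner_add_right, inner_add_right, h v, h w, real_inner_comm v (A w)] at this
  linarith

theorem dd_inner {A : E → V →L[ℝ] V} {s t : E → V} (hA : ∀ v, ⟪A x v, v⟫ = 0) (hs : DifferentiableAt ℝ s x)
    (ht : DifferentiableAt ℝ t x) :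
    dd X (fun y => ⟪s y, t y⟫) x = ⟪cd X A s x, t x⟫ + ⟪s x, cd X A t x⟫ := by
  have := skew_pol hA (s x) (t x)
  unfold dd cd
  rw [fderiv_inner_apply ℝ hs ht, inner_add_left, inner_add_right]
  linarith

theorem dd_nsq {A : E → V →L[ℝ] V} {s : E → V} (hA : ∀ v, ⟪A x v, v⟫ = 0) (hs : DifferentiableAt ℝ s x) :
    dd X (fun y => ‖s y‖ ^ 2) x = 2 * ⟪s x, cd X A s x⟫ := by
  have : (fun y => ‖s y‖ ^ 2) = fun y => ⟪s y, s y⟫ := by
    ext y; rw [real_inner_self_eq_norm_sq]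
  rw [this, dd_inner hA hs hs, real_inner_comm]; ring

theorem dd_dd_nsq {A : E → V →L[ℝ] V} {s : E → V} {Ω : Set E} (hΩ : IsOpen Ω) (hx : x ∈ Ω)
    (hX : ContDiffOn ℝ ∞ X Ω) (hAs : ContDiffOn ℝ ∞ A Ω) (hA : ∀ y ∈ Ω, ∀ v, ⟪A y v, v⟫ = 0)
    (hs : ContDiffOn ℝ ∞ s Ω) :
    dd X (dd X fun y => ‖s y‖ ^ 2) x = 2 * ‖cd X A s x‖ ^ 2 + 2 * ⟪s x, cd X A (cd X A s) x⟫ := by
  have h1 : (dd X fun y => ‖s y‖ ^ 2) =ᶠ[𝓝 x] fun y => 2 * ⟪s y, cd X A s y⟫ :=
    evEq hΩ (fun y hy => dd_nsq (hA y hy) (dOn hΩ hs hy)) hx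
  have hc := dOn hΩ (cd_smOn hΩ hX hAs hs) hx
  rw [dd_congr h1, dd_mul (differentiableAt_const _) ((dOn hΩ hs hx).inner ℝ hc), dd_const,
    dd_inner (hA x hx) (dOn hΩ hs hx) hc, real_inner_self_eq_norm_sq]
  ring

end inner

end

end Crest.Agent.X212.Bern84
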