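import Mathlib

/-!
# Row 212, package AN, BERN (helper84): equivariant elliptic systems in a chart.  DEFINITIONS

`E` = chart space, `P` = parameter space, `z = (p, x) : P × E`.
* `Fm`   : frame `e a` of vector fields on an open `O ⊆ P × E` with brackets `[e a, e b] = ∑ c a b d • e d`;
* `cd X A s = ∂_X s + A s`;  `Fm.D`, `Fm.Lap`, `Fm.Dl` (words), `Fm.curv`;
* `Sys`  : the system `∑ D_a D_a U = ∑ L_a(z,U) D_a U + Q(z,U)`, curvature `= Φ(z,U)`, everything equivariant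
  under the set `Γ z` of fibre maps, which is parallel for the base connection `W`;
* `Sol`  : smooth solutions `(A, U)` on an open set, `A_a` skew, `A_a - W_a` tangent to `Γ`;
* `Sys.pro` : the prolonged system (fibre `V1 = Option ι → V`), solved by `(U, D U)`.
-/

set_option autoImplicit false
open scoped ContDiff Topology RealInnerProductSpace
open Set Filter

namespace Crest.Agent.X212.Bern84

noncomputable section

/-- derivative along the vector field `X` -/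
def dd {E G : Type*} [NormedAddCommGroup E] [NormedSpace ℝ E] [NormedAddCommGroup G] [NormedSpace ℝ G]
    (X : E → E) (f : E → G) (x : E) : G := fderiv ℝ f x (X x)

/-- covariant derivative along `X` -/
def cd {E G : Type*} [NormedAddCommGroup E] [NormedSpace ℝ E] [NormedAddCommGroup G] [NormedSpace ℝ G]
    (X : E → E) (A : E → G →L[ℝ] G) (s : E → G) (x : E) : G := fderiv ℝ s x (X x) + A x (s x)

/-- `ξ` is tangent to `Γ` at the identity -/
def Tan {V : Type*} [NormedAddCommGroup V] [NormedSpace ℝ V] (Γ : Set (V →L[ℝ] V)) (ξ : V →L[ℝ] V) : Prop :=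
  ∃ γ : ℝ → V →L[ℝ] V, (∀ᶠ t in 𝓝 (0 : ℝ), γ t ∈ Γ) ∧ γ 0 = 1 ∧ HasDerivAt γ ξ 0

/-- frame of vector fields depending on parameters -/
structure Fm (P E ι : Type*) [NormedAddCommGroup P] [NormedSpace ℝ P] [NormedAddCommGroup E]
    [NormedSpace ℝ E] [Fintype ι] where
  O : Set (P × E)
  e : ι → P × E → E
  c : ι → ι → ι → P × E → ℝ
  opn : IsOpen O
  sme : ∀ a, ContDiffOn ℝ ∞ (e a) O
  smc : ∀ a b d, ContDiffOn ℝ ∞ (c a b d) O
  br : ∀ a b, ∀ z ∈ O, fderiv ℝ (e b) z (0, e a z) - fderiv ℝ (e a) z (0, e b z) = ∑ d, c a b d z • e d z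

variable {P E ι : Type*} [NormedAddCommGroup P] [NormedSpace ℝ P] [NormedAddCommGroup E]
  [NormedSpace ℝ E] [Fintype ι]

namespace Fm

variable (F : Fm P E ι) {V : Type*} [NormedAddCommGroup V] [NormedSpace ℝ V]

/-- the vector field `e a` at the parameter `p` -/
def X (p : P) (a : ι) (x : E) : E := F.e a (p, x)

/-- `D_a s` -/
def D (p : P) (A : ι → E → V →L[ℝ] V) (a : ι) (s : E → V) : E → V := cd (F.X p a) (A a) s

/-- `∑ D_a D_a s` -/
def Lap (p : P) (A : ι → E → V →L[ℝ] V) (s : E → V) (x : E) : V := ∑ a, F.D p A a (F.D p A a s) x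

/-- `D_{a₁} ⋯ D_{a_k} s` -/
def Dl (p : P) (A : ι → E → V →L[ℝ] V) : List ι → (E → V) → E → V
  | [], s => s
  | a :: l, s => F.D p A a (Dl p A l s)

/-- the curvature `[D_a, D_b] - ∑ c a b d D_d` -/
def curv (p : P) (A : ι → E → V →L[ℝ] V) (a b : ι) (x : E) : V →L[ℝ] V :=
  dd (F.X p a) (A b) x - dd (F.X p b) (A a) x + A a x * A b x - A b x * A a x
    - ∑ d, F.c a b d (p, x) • A d x

end Fm

/-- an equivariant elliptic system -/
structure Sys (F : Fm P E ι) (V : Type*) [NormedAddCommGroup V] [NormedSpace ℝ V] where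
  W : ι → P × E → V →L[ℝ] V
  Γ : P × E → Set (V →L[ℝ] V)
  L : ι → (P × E) × V → V →L[ℝ] V
  Q : (P × E) × V → V
  Φ : ι → ι → (P × E) × V → V →L[ℝ] V
  smW : ∀ a, ContDiffOn ℝ ∞ (W a) F.O
  smL : ∀ a, ContDiffOn ℝ ∞ (L a) (F.O ×ˢ univ)
  smQ : ContDiffOn ℝ ∞ Q (F.O ×ˢ univ)
  smΦ : ∀ a b, ContDiffOn ℝ ∞ (Φ a b) (F.O ×ˢ univ)
  par : ∀ a, ∀ z ∈ F.O, ∀ g ∈ Γ z, ∃ γ : ℝ → V →L[ℝ] V,
    (∀ᶠ t in 𝓝 (0 : ℝ), γ t ∈ Γ (z + t • ((0 : P), F.e a z))) ∧ γ 0 = g ∧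
      HasDerivAt γ (g * W a z - W a z * g) 0
  eqL : ∀ a, ∀ z ∈ F.O, ∀ g ∈ Γ z, ∀ v, L a (z, g v) * g = g * L a (z, v)
  eqQ : ∀ z ∈ F.O, ∀ g ∈ Γ z, ∀ v, Q (z, g v) = g (Q (z, v))
  eqΦ : ∀ a b, ∀ z ∈ F.O, ∀ g ∈ Γ z, ∀ v, Φ a b (z, g v) * g = g * Φ a b (z, v)

/-- smooth solutions on the open set `Ω` for the parameter `p` -/
structure Sol {F : Fm P E ι} {V : Type*} [NormedAddCommGroup V] [InnerProductSpace ℝ V] (S : Sys F V)
    (p : P) (Ω : Set E) (A : ι → E → V →L[ℝ] V) (U : E → V) : Prop where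
  opn : IsOpen Ω
  mem : ∀ x ∈ Ω, (p, x) ∈ F.O
  smA : ∀ a, ContDiffOn ℝ ∞ (A a) Ω
  smU : ContDiffOn ℝ ∞ U Ω
  skew : ∀ a, ∀ x ∈ Ω, ∀ v, ⟪A a x v, v⟫ = 0
  tan : ∀ a, ∀ x ∈ Ω, Tan (S.Γ (p, x)) (A a x - S.W a (p, x))
  curv : ∀ a b, ∀ x ∈ Ω, F.curv p A a b x = S.Φ a b ((p, x), U x)
  eqn : ∀ x ∈ Ω, F.Lap p A U x = ∑ a, S.L a ((p, x), U x) (F.D p A a U x) + S.Q ((p, x), U x)

/-- the fibre of the prolongation -/
abbrev V1 (ι V : Type*) := PiLp 2 (fun _ : Option ι => V)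

section pro

variable {V : Type*} [NormedAddCommGroup V] [NormedSpace ℝ V]

/-- component of `V1` -/
def pr (o : Option ι) : V1 ι V →L[ℝ] V := PiLp.proj 2 (fun _ : Option ι => V) o

open Classical in
/-- inclusion of a component of `V1` -/
def inj (o : Option ι) : V →L[ℝ] V1 ι V :=
  ((PiLp.continuousLinearEquiv 2 ℝ (fun _ : Option ι => V)).symm : (Option ι → V) →L[ℝ] V1 ι V) ∘L
    ContinuousLinearMap.single ℝ (fun _ : Option ι => V) o

/-- diagonal action on `V1` -/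
def dg : (V →L[ℝ] V) →L[ℝ] (V1 ι V →L[ℝ] V1 ι V) :=
  ∑ o : Option ι, ((ContinuousLinearMap.compL ℝ (V1 ι V) V (V1 ι V)) (inj o)) ∘L
    ((ContinuousLinearMap.compL ℝ (V1 ι V) V V).flip (pr o))

/-- the prolonged field `(U, D U)` -/
def Fm.up (F : Fm P E ι) (p : P) (A : ι → E → V →L[ℝ] V) (U : E → V) (x : E) : V1 ι V :=
  WithLp.toLp 2 (fun o => Option.elim o (U x) (fun a => F.D p A a U x))

end pro

end

end Crest.Agent.X212.Bern84
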