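import Crest.Agent.X212.Bern84.Calc

/-!
# BERN (helper84): algebra of `V1`; covariant derivatives of equivariant coefficient functions
-/

set_option autoImplicit false
set_option linter.unusedSectionVars false
set_option linter.deprecated false
open scoped ContDiff Topology RealInnerProductSpace
open Set Filter

namespace Crest.Agent.X212.Bern84

noncomputable section

variable {P E ι : Type*} [NormedAddCommGroup P] [NormedSpace ℝ P] [NormedAddCommGroup E]
  [NormedSpace ℝ E] [Fintype ι]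

section alg

variable {V : Type*} [NormedAddCommGroup V] [NormedSpace ℝ V]

theorem pr_apply (o : Option ι) (y : V1 ι V) : pr o y = y o := rfl

theorem v1_ext {y y' : V1 ι V} (h : ∀ o, pr o y = pr o y') : y = y' := by
  ext o; exact h o

@[simp] theorem pr_inj (o : Option ι) (v : V) : pr o (inj o v : V1 ι V) = v := by
  classical
  simp [pr, inj]

theorem pr_inj_ne {o o' : Option ι} (h : o ≠ o') (v : V) : pr o (inj o' v : V1 ι V) = 0 := by
  classical
  simp [pr, inj, h]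

@[simp] theorem pr_none_some (c : ι) (v : V) : pr none (inj (some c) v : V1 ι V) = 0 :=
  pr_inj_ne (by simp) v

@[simp] theorem pr_some_none (c : ι) (v : V) : pr (some c) (inj none v : V1 ι V) = 0 :=
  pr_inj_ne (by simp) v

theorem sum_pr_inj (o : Option ι) (f : Option ι → V) : ∑ o', pr o (inj o' (f o') : V1 ι V) = f o := by
  rw [Finset.sum_eq_single o]
  · simp
  · intro b _ hb; exact pr_inj_ne (Ne.symm hb) _
  · simp

theorem sum_pr_some (c : ι) (f : ι → V) : ∑ c', pr (some c) (inj (some c') (f c') : V1 ι V) = f c := by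
  rw [Finset.sum_eq_single c]
  · simp
  · intro b _ hb; exact pr_inj_ne (by simpa using Ne.symm hb) _
  · simp

@[simp] theorem pr_dg (o : Option ι) (T : V →L[ℝ] V) (y : V1 ι V) : pr o (dg T y) = T (pr o y) := by
  have : dg T y = ∑ o', (inj o' (T (pr o' y)) : V1 ι V) := by
    simp [dg]
  rw [this, map_sum, sum_pr_inj o fun o' => T (pr o' y)]

theorem dg_mul (T S : V →L[ℝ] V) : (dg (T * S) : V1 ι V →L[ℝ] V1 ι V) = dg T * dg S := by
  ext1 y
  refine v1_ext fun o => ?_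
  simp

theorem dg_one : (dg (1 : V →L[ℝ] V) : V1 ι V →L[ℝ] V1 ι V) = 1 := by
  ext1 y
  refine v1_ext fun o => ?_
  simp

theorem dg_inj (T : V →L[ℝ] V) (o : Option ι) (v : V) : dg T (inj o v : V1 ι V) = inj o (T v) := by
  refine v1_ext fun o' => ?_
  by_cases h : o' = o
  · subst h; simp
  · simp [pr_inj_ne h]

theorem Tan.dg {Γ : Set (V →L[ℝ] V)} {ξ : V →L[ℝ] V} (h : Tan Γ ξ) :
    Tan ((dg : _ →L[ℝ] (V1 ι V →L[ℝ] V1 ι V)) '' Γ) (dg ξ) := by
  obtain ⟨γ, h1, h2, h3⟩ := h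
  refine ⟨fun t => Bern84.dg (γ t), ?_, by simp only [h2, dg_one], ?_⟩
  · filter_upwards [h1] with t ht using ⟨_, ht, rfl⟩
  · exact (Bern84.dg : _ →L[ℝ] (V1 ι V →L[ℝ] V1 ι V)).hasFDerivAt.comp_hasDerivAt (0 : ℝ) h3

variable (F : Fm P E ι)

@[simp] theorem pr_up_none (p : P) (A : ι → E → V →L[ℝ] V) (U : E → V) (x : E) :
    pr none (F.up p A U x) = U x := rfl

@[simp] theorem pr_up_some (p : P) (A : ι → E → V →L[ℝ] V) (U : E → V) (x : E) (c : ι) :
    pr (some c) (F.up p A U x) = F.D p A c U x := rfl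

theorem up_eq (p : P) (A : ι → E → V →L[ℝ] V) (U : E → V) (x : E) :
    F.up p A U x = inj none (U x) + ∑ c, inj (some c) (F.D p A c U x) := by
  refine v1_ext fun o => ?_
  cases o with
  | none => simp
  | some c => simp only [map_add, map_sum, pr_some_none, sum_pr_some, zero_add, pr_up_some]

end alg

theorem norm_sq_v1 {V : Type*} [NormedAddCommGroup V] [NormedSpace ℝ V] (y : V1 ι V) :
    ‖y‖ ^ 2 = ‖pr none y‖ ^ 2 + ∑ c, ‖pr (some c) y‖ ^ 2 := by
  rw [PiLp.norm_sq_eq_of_L2, Fintype.sum_option]; rfl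

theorem norm_pr_le {V : Type*} [NormedAddCommGroup V] [NormedSpace ℝ V] (o : Option ι) (y : V1 ι V) :
    ‖pr o y‖ ≤ ‖y‖ := PiLp.norm_apply_le y o

theorem norm_inj {V : Type*} [NormedAddCommGroup V] [NormedSpace ℝ V] (o : Option ι) (v : V) :
    ‖(inj o v : V1 ι V)‖ = ‖v‖ := by
  have : ‖(inj o v : V1 ι V)‖ ^ 2 = ‖v‖ ^ 2 := by
    rw [PiLp.norm_sq_eq_of_L2, Finset.sum_eq_single o]
    · rw [← pr_apply, pr_inj]
    · intro b _ hb; rw [← pr_apply, pr_inj_ne hb]; simp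
    · simp
  exact (sq_eq_sq₀ (norm_nonneg _) (norm_nonneg _)).1 this

theorem dg_skew {V : Type*} [NormedAddCommGroup V] [InnerProductSpace ℝ V] {T : V →L[ℝ] V}
    (h : ∀ v, ⟪T v, v⟫ = 0) (y : V1 ι V) : ⟪dg T y, y⟫ = 0 := by
  rw [PiLp.inner_apply]
  refine Finset.sum_eq_zero fun o _ => ?_
  rw [← pr_apply, pr_dg]; exact h _

section cov

variable {V G Z : Type*} [NormedAddCommGroup V] [NormedSpace ℝ V] [NormedAddCommGroup G] [NormedSpace ℝ G]
  [NormedAddCommGroup Z] [NormedSpace ℝ Z]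

theorem line_der (z ζ : Z) : HasDerivAt (fun t : ℝ => z + t • ζ) ζ 0 := by
  have := ((hasDerivAt_id (0 : ℝ)).smul_const ζ).const_add z
  rwa [one_smul] at this

theorem line_ev {O : Set Z} (hO : IsOpen O) {z : Z} (hz : z ∈ O) (ζ : Z) :
    ∀ᶠ t in 𝓝 (0 : ℝ), z + t • ζ ∈ O := by
  have := (line_der z ζ).continuousAt
  refine this.eventually_mem ?_
  simpa using hO.mem_nhds hz

theorem curve_der {f : Z × V → G} {z : Z} (ζ : Z) {c : ℝ → V} {c' v : V} (hc : HasDerivAt c c' 0)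
    (h0 : c 0 = v) (hf : DifferentiableAt ℝ f (z, v)) :
    HasDerivAt (fun t : ℝ => f (z + t • ζ, c t)) (fderiv ℝ f (z, v) (ζ, c')) 0 := by
  have h1 := (line_der z ζ).prodMk hc
  have h2 : HasFDerivAt f (fderiv ℝ f (z, v)) (z + (0 : ℝ) • ζ, c 0) := by
    simpa [h0] using hf.hasFDerivAt
  exact h2.comp_hasDerivAt (0 : ℝ) h1

theorem opn_prod {O : Set Z} (hO : IsOpen O) : IsOpen (O ×ˢ (univ : Set V)) := hO.prod isOpen_univ

theorem dP {O : Set Z} (hO : IsOpen O) {f : Z × V → G} (hf : ContDiffOn ℝ ∞ f (O ×ˢ univ)) {z : Z}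
    (hz : z ∈ O) (v : V) : DifferentiableAt ℝ f (z, v) := dOn (opn_prod hO) hf ⟨hz, mem_univ _⟩

/-- differentiated equivariance, vector valued -/
theorem eqv_vec {O : Set Z} (hO : IsOpen O) {f : Z × V → G} (hf : ContDiffOn ℝ ∞ f (O ×ˢ univ)) {z : Z}
    (hz : z ∈ O) (ζ : Z) {γ : ℝ → V →L[ℝ] V} {δ : ℝ → G →L[ℝ] G} {γ' : V →L[ℝ] V} {δ' : G →L[ℝ] G}
    (hγ : HasDerivAt γ γ' 0) (hδ : HasDerivAt δ δ' 0)
    (h : ∀ᶠ t in 𝓝 (0 : ℝ), ∀ v, f (z + t • ζ, γ t v) = δ t (f (z + t • ζ, v))) (v u : V) :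
    fderiv ℝ f (z, γ 0 v) (ζ, γ' v + γ 0 u) = δ' (f (z, v)) + δ 0 (fderiv ℝ f (z, v) (ζ, u)) := by
  have c1 := line_der v u
  have c2 : HasDerivAt (fun t : ℝ => γ t (v + t • u)) (γ' v + γ 0 u) 0 := by
    simpa using hγ.clm_apply c1
  have a := curve_der ζ c2 (v := γ 0 v) (by simp) (dP hO hf hz _)
  have b := hδ.clm_apply (curve_der ζ c1 (v := v) (by simp) (dP hO hf hz _))
  have e : (fun t : ℝ => f (z + t • ζ, γ t (v + t • u))) =ᶠ[𝓝 0] fun t => δ t (f (z + t • ζ, v + t • u)) := by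
    filter_upwards [h] with t ht using ht _
  have := (a.congr_of_eventuallyEq e.symm).unique b
  simpa using this

/-- differentiated equivariance, operator valued -/
theorem eqv_op {O : Set Z} (hO : IsOpen O) {T : Z × V → G →L[ℝ] G} (hf : ContDiffOn ℝ ∞ T (O ×ˢ univ)) {z : Z}
    (hz : z ∈ O) (ζ : Z) {γ : ℝ → V →L[ℝ] V} {δ : ℝ → G →L[ℝ] G} {γ' : V →L[ℝ] V} {δ' : G →L[ℝ] G}
    (hγ : HasDerivAt γ γ' 0) (hδ : HasDerivAt δ δ' 0)
    (h : ∀ᶠ t in 𝓝 (0 : ℝ), ∀ v, T (z + t • ζ, γ t v) * δ t = δ t * T (z + t • ζ, v)) (v u : V) :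
    fderiv ℝ T (z, γ 0 v) (ζ, γ' v + γ 0 u) * δ 0 + T (z, γ 0 v) * δ'
      = δ' * T (z, v) + δ 0 * fderiv ℝ T (z, v) (ζ, u) := by
  have c1 := line_der v u
  have c2 : HasDerivAt (fun t : ℝ => γ t (v + t • u)) (γ' v + γ 0 u) 0 := by
    simpa using hγ.clm_apply c1
  have a := (curve_der ζ c2 (v := γ 0 v) (by simp) (dP hO hf hz _)).mul hδ
  have b := hδ.mul (curve_der ζ c1 (v := v) (by simp) (dP hO hf hz _))
  have e : ((fun t : ℝ => T (z + t • ζ, γ t (v + t • u))) * δ) =ᶠ[𝓝 0]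
      δ * fun t => T (z + t • ζ, v + t • u) := by
    filter_upwards [h] with t ht using ht _
  have := (a.congr_of_eventuallyEq e.symm).unique b
  simpa using this

end cov

end

end Crest.Agent.X212.Bern84
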