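import Crest.Agent.X212.Bern84.YM

/-!
# BERN (helper84): Lipschitz bounds, interpolation, almost harmonic sections
-/

set_option autoImplicit false
set_option linter.unusedSectionVars false
set_option linter.deprecated false
open scoped ContDiff Topology RealInnerProductSpace
open Set Filter Metric

namespace Crest.Agent.X212.Bern84

noncomputable section

variable {P E ι : Type} [NormedAddCommGroup P] [NormedSpace ℝ P] [NormedAddCommGroup E]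
  [InnerProductSpace ℝ E] [FiniteDimensional ℝ E] [Fintype ι] {F : Fm P E ι}

/-- the frame spans -/
def Fm.Span (F : Fm P E ι) : Prop := ∀ z ∈ F.O, ∀ v : E, ∃ t : ι → ℝ, v = ∑ a, t a • F.e a z

theorem span_bd (hs : F.Span) {T : Set (P × E)} (hT : IsCompact T) (hO : T ⊆ F.O) :
    ∃ C, 0 ≤ C ∧ ∀ z ∈ T, ∀ ℓ : E →L[ℝ] ℝ, ‖ℓ‖ ≤ C * ∑ a, |ℓ (F.e a z)| := by
  have := FiniteDimensional.proper_real (E →L[ℝ] ℝ)
  have hc : ContinuousOn (fun q : (P × E) × (E →L[ℝ] ℝ) => ∑ a, |q.2 (F.e a q.1)|) (T ×ˢ sphere 0 1) :=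
    continuousOn_finset_sum _ fun a _ => (continuousOn_snd.clm_apply
      (((F.sme a).continuousOn.mono hO).comp continuousOn_fst fun _ h => h.1)).abs
  obtain ⟨m, hm, H⟩ := (hT.prod (isCompact_sphere (0 : E →L[ℝ] ℝ) 1)).exists_forall_le' hc (a := 0) (by
    rintro ⟨z, ℓ⟩ ⟨hz, hℓ⟩
    refine lt_of_le_of_ne (Finset.sum_nonneg fun _ _ => abs_nonneg _) fun h0 => ?_
    have h1 := (Finset.sum_eq_zero_iff_of_nonneg fun _ _ => abs_nonneg _).1 h0.symm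
    have : ℓ = 0 := by
      ext v
      obtain ⟨t, rfl⟩ := hs z (hO hz) v
      simp only [map_sum, map_smul, ContinuousLinearMap.zero_apply]
      refine Finset.sum_congr rfl fun a _ => ?_
      rw [show ℓ (F.e a z) = 0 from abs_eq_zero.1 (h1 a (Finset.mem_univ a))]
    simp [this] at hℓ)
  refine ⟨m⁻¹, by positivity, fun z hz ℓ => ?_⟩
  by_cases h0 : ℓ = 0
  · subst h0; simp
  have hn : 0 < ‖ℓ‖ := norm_pos_iff.2 h0
  have := H (z, ‖ℓ‖⁻¹ • ℓ) ⟨hz, by simp [norm_smul, hn.ne']⟩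
  simp only [ContinuousLinearMap.smul_apply, smul_eq_mul, abs_mul, abs_inv, abs_norm, ← Finset.mul_sum] at this
  rw [le_inv_mul_iff₀ hm]
  rw [le_inv_mul_iff₀ hn] at this
  linarith

theorem lip {C M : ℝ} (hC : 0 ≤ C) {p : P} {s : Set E} (hs : Convex ℝ s)
    (h : ∀ y ∈ s, ∀ ℓ : E →L[ℝ] ℝ, ‖ℓ‖ ≤ C * ∑ a, |ℓ (F.e a (p, y))|) {f : E → ℝ}
    (hf : ∀ y ∈ s, DifferentiableAt ℝ f y) (hM : ∀ y ∈ s, ∀ a, |dd (F.X p a) f y| ≤ M) {y y' : E} (hy : y ∈ s)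
    (hy' : y' ∈ s) : |f y' - f y| ≤ C * (Fintype.card ι * M) * ‖y' - y‖ :=
  hs.norm_image_sub_le_of_norm_fderiv_le (𝕜 := ℝ) hf (fun x hx => (h x hx _).trans
    (mul_le_mul_of_nonneg_left ((Finset.sum_le_card_nsmul _ _ M fun a _ => hM x hx a).trans
      (by simp)) hC)) hy hy'

variable {V : Type} [NormedAddCommGroup V] [InnerProductSpace ℝ V]

/-- words of length `≤ j` are bounded by `C` on the closed ball of radius `ρ` -/
def WB (F : Fm P E ι) (p : P) (A : ι → E → V →L[ℝ] V) (j : ℕ) (C ρ : ℝ) (s : E → V) : Prop :=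
  ∀ l : List ι, l.length ≤ j → ∀ y ∈ closedBall (0 : E) ρ, ‖F.Dl p A l s y‖ ≤ C

section wb

variable {p : P} {A : ι → E → V →L[ℝ] V} {j : ℕ} {C C' ρ ρ' : ℝ} {s s' : E → V} {Ω : Set E}

theorem WB.mono (h : WB F p A j C ρ s) {j' : ℕ} (hj : j' ≤ j) (hC : C ≤ C') (hρ : ρ' ≤ ρ) : WB F p A j' C' ρ' s :=
  fun l hl y hy => (h l (hl.trans hj) y (closedBall_subset_closedBall hρ hy)).trans hC

theorem WB.D (h : WB F p A (j + 1) C ρ s) (a : ι) : WB F p A j C ρ (F.D p A a s) := fun l hl y hy => by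
  have := h (l ++ [a]) (by simpa using hl) y hy
  rwa [Dl_append] at this

theorem WB.d0 (h : WB F p A j C ρ s) {y : E} (hy : y ∈ closedBall (0 : E) ρ) : ‖s y‖ ≤ C := h [] (by simp) y hy

theorem Cn.Dl_sub (h : Cn F p Ω A) (hs : ContDiffOn ℝ ∞ s Ω) (hs' : ContDiffOn ℝ ∞ s' Ω) :
    ∀ (l : List ι), ∀ x ∈ Ω, F.Dl p A l (fun y => s y - s' y) x = F.Dl p A l s x - F.Dl p A l s' x
  | [], _, _ => rfl
  | a :: l, x, hx => by
    rw [Fm.Dl, Fm.Dl, Fm.Dl, ← D_sub (dOn h.opn (h.smDl l hs) hx) (dOn h.opn (h.smDl l hs') hx)]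
    exact D_congr (evEq h.opn (h.Dl_sub hs hs' l) hx)

theorem Cn.Dl_sum (h : Cn F p Ω A) {f : ι → E → V} (hf : ∀ a, ContDiffOn ℝ ∞ (f a) Ω) :
    ∀ (l : List ι), ∀ x ∈ Ω, F.Dl p A l (fun y => ∑ a, f a y) x = ∑ a, F.Dl p A l (f a) x
  | [], _, _ => rfl
  | a :: l, x, hx => by
    simp only [Fm.Dl]
    rw [← D_sum fun b => dOn h.opn (h.smDl l (hf b)) hx]
    exact D_congr (evEq h.opn (h.Dl_sum hf l) hx)

theorem D_clm (T : V →L[ℝ] V) {a : ι} {x : E} (hT : ∀ v, A a x (T v) = T (A a x v)) (hs : DifferentiableAt ℝ s x) :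
    F.D p A a (fun y => T (s y)) x = T (F.D p A a s x) := by
  simp only [Fm.D, cd_eq, dd_clm T hs, hT, map_add]

theorem Cn.Dl_clm (h : Cn F p Ω A) (T : V →L[ℝ] V) (hT : ∀ a, ∀ x ∈ Ω, ∀ v, A a x (T v) = T (A a x v))
    (hs : ContDiffOn ℝ ∞ s Ω) : ∀ (l : List ι), ∀ x ∈ Ω, F.Dl p A l (fun y => T (s y)) x = T (F.Dl p A l s x)
  | [], _, _ => rfl
  | a :: l, x, hx => by
    rw [Fm.Dl, Fm.Dl, ← D_clm T (hT a x hx) (dOn h.opn (h.smDl l hs) hx)]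
    exact D_congr (evEq h.opn (h.Dl_clm T hT hs l) hx)

theorem WB.sub (h : Cn F p Ω A) (hΩ : closedBall 0 ρ ⊆ Ω) (hs : ContDiffOn ℝ ∞ s Ω) (hs' : ContDiffOn ℝ ∞ s' Ω)
    (h1 : WB F p A j C ρ s) (h2 : WB F p A j C' ρ s') : WB F p A j (C + C') ρ fun y => s y - s' y :=
  fun l hl y hy => by
    rw [h.Dl_sub hs hs' l y (hΩ hy)]
    exact (norm_sub_le _ _).trans (add_le_add (h1 l hl y hy) (h2 l hl y hy))

theorem WB.sum (h : Cn F p Ω A) (hΩ : closedBall 0 ρ ⊆ Ω) {f : ι → E → V} (hf : ∀ a, ContDiffOn ℝ ∞ (f a) Ω)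
    (h1 : ∀ a, WB F p A j C ρ (f a)) : WB F p A j (Fintype.card ι * C) ρ fun y => ∑ a, f a y :=
  fun l hl y hy => by
    rw [h.Dl_sum hf l y (hΩ hy)]
    exact (norm_sum_le _ _).trans ((Finset.sum_le_card_nsmul _ _ C fun a _ => h1 a l hl y hy).trans (by simp))

theorem WB.clm (h : Cn F p Ω A) (hΩ : closedBall 0 ρ ⊆ Ω) (T : V →L[ℝ] V)
    (hT : ∀ a, ∀ x ∈ Ω, ∀ v, A a x (T v) = T (A a x v)) (hs : ContDiffOn ℝ ∞ s Ω) (h1 : WB F p A j C ρ s) :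
    WB F p A j (‖T‖ * C) ρ fun y => T (s y) := fun l hl y hy => by
  rw [h.Dl_clm T hT hs l y (hΩ hy)]
  exact (T.le_opNorm _).trans (mul_le_mul_of_nonneg_left (h1 l hl y hy) (norm_nonneg _))

end wb

variable {K : Set P}

/-- Lipschitz bound for `‖s‖²` -/
theorem lip_nsq (hs : F.Span) (hK : IsCompact K) {ρ : ℝ} (hO : K ×ˢ closedBall 0 ρ ⊆ F.O) (C : ℝ) :
    ∃ L, 0 ≤ L ∧ ∀ p ∈ K, ∀ Ω (A : ι → E → V →L[ℝ] V) s, Cn F p Ω A → ContDiffOn ℝ ∞ s Ω → closedBall 0 ρ ⊆ Ω →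
      WB F p A 1 C ρ s → ∀ y ∈ closedBall (0 : E) ρ, ∀ y' ∈ closedBall (0 : E) ρ,
        |‖s y'‖ ^ 2 - ‖s y‖ ^ 2| ≤ L * ‖y' - y‖ := by
  obtain ⟨Ce, h0, H⟩ := span_bd hs (hK.prod (isCompact_closedBall (0 : E) ρ)) hO
  refine ⟨Ce * (Fintype.card ι * (2 * (C * C))), by have := mul_self_nonneg C; positivity,
    fun p hp Ω A s h hsm hΩ hw y hy y' hy' => ?_⟩
  refine lip (f := fun y => ‖s y‖ ^ 2) h0 (convex_closedBall 0 ρ) (fun y hy => H (p, y) ⟨hp, hy⟩)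
    (fun y hy => dOn h.opn (hsm.norm_sq ℝ) (hΩ hy)) (fun y hy a => (h.d_nsq hsm a (hΩ hy)).trans ?_) hy hy'
  exact mul_le_mul_of_nonneg_left (mul_le_mul (hw.d0 hy) ((hw.D a).d0 hy) (norm_nonneg _)
    ((norm_nonneg _).trans (hw.d0 hy))) zero_le_two

theorem cb_sub {y y' : E} {ρ ρ' t : ℝ} (hy : y ∈ closedBall (0 : E) ρ) (hy' : y' ∈ closedBall y t)
    (ht : t ≤ ρ' - ρ) : y' ∈ closedBall (0 : E) ρ' :=
  closedBall_subset_closedBall' (by rw [mem_closedBall] at hy; linarith) hy'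

/-- small at a nearby point implies small -/
theorem near (hs : F.Span) (hK : IsCompact K) {ρ ρ' : ℝ} (hρ : ρ < ρ') (hO : K ×ˢ closedBall 0 ρ' ⊆ F.O) (C : ℝ)
    {θ : ℝ} (hθ : 0 < θ) : ∃ t, 0 < t ∧ t ≤ ρ' - ρ ∧ ∀ p ∈ K, ∀ Ω (A : ι → E → V →L[ℝ] V) s, Cn F p Ω A →
      ContDiffOn ℝ ∞ s Ω → closedBall 0 ρ' ⊆ Ω → WB F p A 1 C ρ' s → ∀ y ∈ closedBall (0 : E) ρ,
        ∀ y' ∈ closedBall y t, ‖s y'‖ ≤ θ / 2 → ‖s y‖ ≤ θ := by
  obtain ⟨L, h0, H⟩ := lip_nsq (V := V) hs hK hO C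
  refine ⟨min (ρ' - ρ) (θ ^ 2 / (2 * (L + 1))), lt_min (by linarith) (by positivity), min_le_left _ _,
    fun p hp Ω A s h hsm hΩ hw y hy y' hy' hs' => ?_⟩
  have a := H p hp Ω A s h hsm hΩ hw y (closedBall_subset_closedBall hρ.le hy) y' (cb_sub hy hy' (min_le_left _ _))
  have b : ‖y' - y‖ ≤ θ ^ 2 / (2 * (L + 1)) := (mem_closedBall_iff_norm.1 hy').trans (min_le_right _ _)
  rw [le_div_iff₀ (by positivity)] at b
  have c := (abs_le.1 a).1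
  have d : ‖s y'‖ ^ 2 ≤ (θ / 2) ^ 2 := by gcongr
  refine (abs_le_of_sq_le_sq' ?_ hθ.le).2
  nlinarith [norm_nonneg (y' - y), sq_nonneg θ]

theorem lap_dist (hK : IsCompact K) {ρ : ℝ} (hO : K ×ˢ closedBall 0 ρ ⊆ F.O) :
    ∃ C, 0 ≤ C ∧ ∀ p ∈ K, ∀ y₀ ∈ closedBall (0 : E) ρ, ∀ y ∈ closedBall (0 : E) ρ,
      ∑ a, dd (F.X p a) (dd (F.X p a) fun y => ‖y - y₀‖ ^ 2) y ≤ C := by
  have hc : ContDiffOn ℝ ∞ (fun z : P × E => (fun a => F.e a z, fun a => fderiv ℝ (F.e a) z (0, F.e a z))) F.O :=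
    (contDiffOn_pi.2 F.sme).prodMk (contDiffOn_pi.2 fun a =>
      (fd_smOn F.opn (F.sme a)).clm_apply (contDiffOn_const.prodMk (F.sme a)))
  obtain ⟨M, hM⟩ := (hK.prod (isCompact_closedBall (0 : E) ρ)).exists_bound_of_continuousOn
    (hc.continuousOn.mono hO)
  refine ⟨Fintype.card ι * (2 * M ^ 2 + 2 * (2 * |ρ| * |M|)), by positivity, fun p hp y₀ h₀ y hy => ?_⟩
  refine (Finset.sum_le_card_nsmul _ _ (2 * M ^ 2 + 2 * (2 * |ρ| * |M|)) fun a _ => ?_).trans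
    (by rw [Finset.card_univ, nsmul_eq_mul])
  have ho : IsOpen {x | (p, x) ∈ F.O} := F.opn.preimage (by fun_prop)
  have hz : (p, y) ∈ F.O := hO ⟨hp, hy⟩
  have e : cd (F.X p a) (fun _ => (0 : E →L[ℝ] E)) (fun y => y - y₀) = F.X p a := by
    ext1 x; simp [cd, fderiv_sub_const]
  rw [dd_dd_nsq (A := fun _ => (0 : E →L[ℝ] E)) (s := fun y => y - y₀) ho hz (sm_X (fun _ h => h) a) contDiffOn_const (by simp)
    (contDiffOn_id.sub contDiffOn_const), e, cd_eq, ContinuousLinearMap.zero_apply, add_zero]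
  have e2 : dd (F.X p a) (F.X p a) y = fderiv ℝ (F.e a) (p, y) (0, F.e a (p, y)) := dd_par (F.sme a) hz _
  have m := hM (p, y) ⟨hp, hy⟩
  have m1 : ‖F.X p a y‖ ≤ M := (norm_le_pi_norm (fun a => F.e a (p, y)) a).trans ((norm_fst_le _).trans m)
  have m2 : ‖dd (F.X p a) (F.X p a) y‖ ≤ |M| := by
    rw [e2]
    exact ((norm_le_pi_norm (fun a => fderiv ℝ (F.e a) (p, y) (0, F.e a (p, y))) a).trans
      ((norm_snd_le _).trans m)).trans (le_abs_self _)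
  have m3 : ‖y - y₀‖ ≤ 2 * |ρ| := by
    have := norm_sub_le y y₀
    have := mem_closedBall_zero_iff.1 hy; have := mem_closedBall_zero_iff.1 h₀; have := le_abs_self ρ
    linarith
  have m4 := (real_inner_le_norm (y - y₀) (dd (F.X p a) (F.X p a) y)).trans
    (mul_le_mul m3 m2 (norm_nonneg _) (by positivity))
  have m5 : ‖F.X p a y‖ ^ 2 ≤ M ^ 2 := by gcongr
  linarith

/-- **interpolation**: a small section with bounded second derivatives has small first derivatives -/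
theorem grad (hs : F.Span) (hK : IsCompact K) {ρ ρ' : ℝ} (hρ : ρ < ρ') (hO : K ×ˢ closedBall 0 ρ' ⊆ F.O) (C : ℝ)
    {η : ℝ} (hη : 0 < η) : ∃ θ, 0 < θ ∧ ∀ p ∈ K, ∀ Ω (A : ι → E → V →L[ℝ] V) s, Cn F p Ω A →
      ContDiffOn ℝ ∞ s Ω → closedBall 0 ρ' ⊆ Ω → WB F p A 2 C ρ' s → (∀ y ∈ closedBall (0 : E) ρ', ‖s y‖ ≤ θ) →
        ∀ a, ∀ y ∈ closedBall (0 : E) ρ, ‖F.D p A a s y‖ ≤ η := by
  obtain ⟨t, ht, htρ, H⟩ := near (V := V) hs hK hρ hO C hη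
  obtain ⟨C3, h3, H3⟩ := lap_dist hK hO
  set n : ℝ := (Fintype.card ι : ℝ)
  have n0 : 0 ≤ n := Nat.cast_nonneg _
  set M := 2 * (n * |C|) + 2 * C3 / t ^ 2 + 1
  have M0 : 0 < M := by positivity
  set θ := min 1 (η ^ 2 / (4 * M))
  have θ0 : 0 < θ := lt_min one_pos (by positivity)
  refine ⟨θ, θ0, fun p hp Ω A s h hsm hΩ hw hθ a y₀ h₀ => ?_⟩
  by_contra hc
  have sub : closedBall y₀ t ⊆ closedBall 0 ρ' := fun y hy => cb_sub h₀ hy htρ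
  have big : ∀ y ∈ closedBall y₀ t, η / 2 < ‖F.D p A a s y‖ := fun y hy => by
    by_contra h'
    exact hc (H p hp Ω A _ h (h.smD a hsm) hΩ (hw.D a) y₀ h₀ y hy (not_lt.1 h'))
  set β := 2 * θ / t ^ 2 with hβ
  have β0 : 0 < β := by positivity
  have sd : ContDiffOn ℝ ∞ (fun y : E => ‖y - y₀‖ ^ 2) Ω := (contDiffOn_id.sub contDiffOn_const).norm_sq ℝ
  have sn : ContDiffOn ℝ ∞ (fun y => ‖s y‖ ^ 2) Ω := hsm.norm_sq ℝ
  have sg : ContDiffOn ℝ ∞ (fun y => ‖s y‖ ^ 2 - β * ‖y - y₀‖ ^ 2) Ω := sn.sub (contDiffOn_const.mul sd)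
  obtain ⟨y, hy, hmax⟩ := (isCompact_closedBall y₀ t).exists_isMaxOn ⟨y₀, mem_closedBall_self ht.le⟩
    (sg.continuousOn.mono (sub.trans hΩ))
  have hyΩ := hΩ (sub hy)
  have sθ := hθ y (sub hy)
  have θ1 : θ ≤ 1 := min_le_left _ _
  have hin : ‖y - y₀‖ < t := by
    by_contra h'
    have a1 : ‖s y₀‖ ^ 2 - β * ‖y₀ - y₀‖ ^ 2 ≤ ‖s y‖ ^ 2 - β * ‖y - y₀‖ ^ 2 := hmax (mem_closedBall_self ht.le)
    have a2 : t ^ 2 ≤ ‖y - y₀‖ ^ 2 := by gcongr; exact not_lt.1 h'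
    have a3 : β * t ^ 2 = 2 * θ := by rw [hβ]; field_simp
    have a4 : ‖s y‖ ^ 2 ≤ θ ^ 2 := by gcongr
    simp only [sub_self, norm_zero] at a1
    nlinarith [mul_le_mul_of_nonneg_left a2 β0.le, sq_nonneg ‖s y₀‖]
  have hm : IsLocalMax (fun y => ‖s y‖ ^ 2 - β * ‖y - y₀‖ ^ 2) y :=
    hmax.isLocalMax (closedBall_mem_nhds_of_mem (mem_ball_iff_norm.2 hin))
  have b1 : ∑ b, dd (F.X p b) (dd (F.X p b) fun y => ‖s y‖ ^ 2 - β * ‖y - y₀‖ ^ 2) y ≤ 0 :=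
    Finset.sum_nonpos fun b _ => dd_dd_max (dOn h.opn (sm_X h.mem b) hyΩ) (cAt h.opn sg hyΩ) hm
  have b2 : ∀ b, dd (F.X p b) (dd (F.X p b) fun y => ‖s y‖ ^ 2 - β * ‖y - y₀‖ ^ 2) y =
      dd (F.X p b) (dd (F.X p b) fun y => ‖s y‖ ^ 2) y - β * dd (F.X p b) (dd (F.X p b) fun y => ‖y - y₀‖ ^ 2) y := by
    intro b
    have c1 := dOn h.opn (dd_smOn h.opn (sm_X h.mem b) sn) hyΩ
    have c2 := dOn h.opn (dd_smOn h.opn (sm_X h.mem b) sd) hyΩ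
    rw [dd_congr (evEq h.opn (g := fun x => dd (F.X p b) (fun y => ‖s y‖ ^ 2) x
      - β * dd (F.X p b) (fun y => ‖y - y₀‖ ^ 2) x) (fun x hx => ?_) hyΩ),
      dd_sub c1 ((differentiableAt_const β).fun_mul c2), dd_mul (differentiableAt_const β) c2, dd_const, zero_mul,
      zero_add]
    rw [dd_sub (dOn h.opn sn hx) ((differentiableAt_const β).fun_mul (dOn h.opn sd hx)),
      dd_mul (differentiableAt_const β) (dOn h.opn sd hx), dd_const, zero_mul, zero_add]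
  simp only [b2, Finset.sum_sub_distrib, ← Finset.mul_sum, h.lap_nsq hsm hyΩ] at b1
  have b3 := mul_le_mul_of_nonneg_left (H3 p hp y₀ (closedBall_subset_closedBall hρ.le h₀) y (sub hy)) β0.le
  have b4 : (η / 2) ^ 2 ≤ ∑ b, ‖F.D p A b s y‖ ^ 2 :=
    le_trans (by gcongr; exact (big y hy).le)
      (Finset.single_le_sum (f := fun b => ‖F.D p A b s y‖ ^ 2) (fun _ _ => sq_nonneg _) (Finset.mem_univ a))
  have b5 : ‖F.Lap p A s y‖ ≤ n * |C| := (norm_sum_le _ _).trans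
    ((Finset.sum_le_card_nsmul _ _ |C| fun b _ => (hw [b, b] le_rfl y (sub hy)).trans (le_abs_self _)).trans
      (by simp [n]))
  have b6 := neg_le_of_abs_le ((abs_real_inner_le_norm (s y) (F.Lap p A s y)).trans
    (mul_le_mul sθ b5 (norm_nonneg _) θ0.le))
  have b7 : θ * (4 * M) ≤ η ^ 2 := (le_div_iff₀ (by positivity)).1 (min_le_right _ _)
  have b8 : β * C3 = θ * (2 * C3 / t ^ 2) := by rw [hβ]; ring
  have b9 : θ * M = 2 * (θ * (n * |C|)) + θ * (2 * C3 / t ^ 2) + θ := by simp only [M]; ring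
  nlinarith [sq_pos_of_pos hη]

/-- almost harmonic sections of almost flat connections -/
theorem harm (hs : F.Span) (hK : IsCompact K) {ρ ρ' : ℝ} (hρ : ρ < ρ') (hO : K ×ˢ closedBall 0 ρ' ⊆ F.O) {C : ℝ}
    (hC : 0 ≤ C) : ∃ φ, 0 < φ ∧ ∀ p ∈ K, ∀ Ω (A : ι → E → V →L[ℝ] V) s, Cn F p Ω A →
      ContDiffOn ℝ ∞ s Ω → closedBall 0 ρ' ⊆ Ω → WB F p A 4 C ρ' s →
      (∀ y ∈ closedBall (0 : E) ρ', (∀ a b, ‖F.curv p A a b y‖ ≤ φ) ∧ (∀ a b d, |F.c a b d (p, y)| ≤ φ) ∧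
        ‖F.Lap p A s y‖ ≤ φ) →
      ∀ y ∈ closedBall (0 : E) ρ, ‖F.Lap p A s y‖ ≤ 1 ∧ ∀ c, ‖F.Lap p A (F.D p A c s) y‖ ≤ 1 := by
  set n : ℝ := (Fintype.card ι : ℝ) with hn
  have n0 : 0 ≤ n := Nat.cast_nonneg _
  set η := 1 / (2 * n + 1)
  have η0 : 0 < η := by positivity
  obtain ⟨θ, hθ, H⟩ := grad (V := V) hs hK hρ hO ((n + 2) * C) η0
  set M := (1 + n) * C + 1
  have M1 : 1 ≤ M := by simp only [M]; nlinarith
  set φ := min θ η / M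
  have φ0 : 0 < φ := by have := lt_min hθ η0; positivity
  have φM : φ * M = min θ η := div_mul_cancel₀ _ (by positivity)
  refine ⟨φ, φ0, fun p hp Ω A s h hsm hΩ hw hφ y hy => ?_⟩
  have hD := fun a => h.smD a hsm
  have hDD := fun a b => h.smD a (hD b)
  have φle : φ ≤ min θ η := by nlinarith
  have cm : ∀ (u : E → V), ContDiffOn ℝ ∞ u Ω → WB F p A 1 C ρ' u → ∀ a c, ∀ x ∈ closedBall (0 : E) ρ',
      ‖F.D p A a (F.D p A c u) x - F.D p A c (F.D p A a u) x‖ ≤ min θ η := by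
    intro u hu hb a c x hx
    rw [D_comm h.opn h.mem h.smA a c hu (hΩ hx), add_assoc, add_sub_cancel_left]
    have a1 : ‖F.curv p A a c x (u x)‖ ≤ φ * C :=
      (ContinuousLinearMap.le_opNorm _ _).trans (mul_le_mul ((hφ x hx).1 a c) (hb.d0 hx) (norm_nonneg _) φ0.le)
    have a2 : ‖∑ d, F.c a c d (p, x) • F.D p A d u x‖ ≤ n * (φ * C) := (norm_sum_le _ _).trans
      ((Finset.sum_le_card_nsmul _ _ (φ * C) fun d _ => by
        rw [norm_smul]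
        exact mul_le_mul ((hφ x hx).2.1 a c d) ((hb.D d).d0 hx) (norm_nonneg _) φ0.le).trans (by simp [hn]))
    refine (norm_add_le _ _).trans ?_
    rw [← φM]; simp only [M]; nlinarith
  have hy' := closedBall_subset_closedBall hρ.le hy
  have η1 : η ≤ 1 := by simp only [η]; rw [div_le_one (by positivity)]; linarith
  refine ⟨(hφ y hy').2.2.trans (φle.trans ((min_le_right _ _).trans η1)), fun c => ?_⟩
  have sL : ContDiffOn ℝ ∞ (F.Lap p A s) Ω := ContDiffOn.sum fun a _ => hDD a a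
  have g1 : ‖F.D p A c (F.Lap p A s) y‖ ≤ η := H p hp Ω A _ h sL hΩ
    ((WB.sum h hΩ (fun a => hDD a a) fun a => (hw.D a).D a).mono le_rfl (by rw [← hn]; nlinarith) le_rfl)
    (fun x hx => (hφ x hx).2.2.trans (φle.trans (min_le_left _ _))) c y hy
  have g2 : ∀ a, ‖F.D p A a (fun x => F.D p A a (F.D p A c s) x - F.D p A c (F.D p A a s) x) y‖ ≤ η := fun a =>
    H p hp Ω A _ h ((hDD a c).sub (hDD c a)) hΩ
      ((WB.sub h hΩ (hDD a c) (hDD c a) ((hw.D c).D a) ((hw.D a).D c)).mono le_rfl (by nlinarith) le_rfl)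
      (fun x hx => (cm s hsm (hw.mono (by norm_num) le_rfl le_rfl) a c x hx).trans (min_le_left _ _)) a y hy
  have g3 := fun a => (cm _ (hD a) ((hw.D a).mono (by norm_num) le_rfl le_rfl) a c y hy').trans (min_le_right _ _)
  have e : F.Lap p A (F.D p A c s) y = F.D p A c (F.Lap p A s) y + ∑ a,
      (F.D p A a (fun x => F.D p A a (F.D p A c s) x - F.D p A c (F.D p A a s) x) y
        + (F.D p A a (F.D p A c (F.D p A a s)) y - F.D p A c (F.D p A a (F.D p A a s)) y)) := by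
    have t1 : F.D p A c (F.Lap p A s) y = ∑ a, F.D p A c (F.D p A a (F.D p A a s)) y :=
      D_sum fun a => dOn h.opn (hDD a a) (hΩ hy')
    rw [t1, Fm.Lap, ← Finset.sum_add_distrib]
    refine Finset.sum_congr rfl fun a _ => ?_
    rw [D_sub (dOn h.opn (hDD a c) (hΩ hy')) (dOn h.opn (hDD c a) (hΩ hy'))]
    abel
  rw [e]
  refine (norm_add_le _ _).trans ((add_le_add g1 ((norm_sum_le _ _).trans (Finset.sum_le_card_nsmul _ _ (η + η)
    fun a _ => (norm_add_le _ _).trans (add_le_add (g2 a) (g3 a))))).trans (le_of_eq ?_))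
  simp only [Finset.card_univ, nsmul_eq_mul, ← hn, η]
  field_simp
  ring

/-- gradient estimate with universal constants -/
theorem harm_grad (hK : IsCompact K) {ρ : ℝ} (hρ : 0 < ρ) (hO : K ×ˢ closedBall 0 ρ ⊆ F.O) (R : ℝ) :
    ∃ C, ∀ p ∈ K, ∀ Ω (A : ι → E → V →L[ℝ] V) s, Cn F p Ω A → ContDiffOn ℝ ∞ s Ω → closedBall 0 ρ ⊆ Ω →
      (∀ y ∈ closedBall (0 : E) ρ, ‖s y‖ ≤ R ∧ ‖F.Lap p A s y‖ ≤ 1 ∧ ∀ c, ‖F.Lap p A (F.D p A c s) y‖ ≤ 1) →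
      ∀ a, ‖F.D p A a s 0‖ ≤ C := by
  obtain ⟨χ, c1, c2, c3, ts, c4⟩ := exists_cut (0 : E) (half_pos hρ) (half_lt_self hρ)
  rw [← ts] at hO
  obtain ⟨C, H⟩ := bern1_of (V := V) hK c1 c2 c3 hO (C := 1 + Fintype.card ι) (by positivity) R
  rw [ts] at H
  refine ⟨C, fun p hp Ω A s h hsm hΩ hb a => ?_⟩
  have := H p hp Ω A s h hsm hΩ (fun y hy => ⟨(hb y hy).1, ?_, ?_⟩) 0 (mem_closedBall_self hρ.le)
  · rw [c4 0 (mem_closedBall_self (half_pos hρ).le), abs_one, one_mul] at this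
    exact (norm_pr_le (some a) (F.up p A s 0)).trans this
  · refine (hb y hy).2.1.trans (one_le_mul_of_one_le_of_one_le ?_ ?_) <;> simp
  · have e : ∀ o, pr o (F.Lap p (fun a x => dg (A a x)) (F.up p A s) y) =
        F.Lap p A (fun x => pr o (F.up p A s x)) y := fun o => by
      simp only [Fm.Lap, map_sum]
      exact Finset.sum_congr rfl fun b _ => pr_Dl h.opn h.mem h.smA o (h.smup hsm) [b, b] (hΩ hy)
    have e2 : ‖F.Lap p (fun a x => dg (A a x)) (F.up p A s) y‖ ^ 2 ≤ (1 + Fintype.card ι : ℝ) ^ 2 := by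
      rw [norm_sq_v1]
      simp only [e]
      have a1 : ‖F.Lap p A s y‖ ^ 2 ≤ 1 := pow_le_one₀ (norm_nonneg _) (hb y hy).2.1
      have a2 : ∑ c, ‖F.Lap p A (F.D p A c s) y‖ ^ 2 ≤ Fintype.card ι :=
        (Finset.sum_le_card_nsmul _ _ 1 fun c _ => pow_le_one₀ (norm_nonneg _) ((hb y hy).2.2 c)).trans (by simp)
      have n0 : (0 : ℝ) ≤ Fintype.card ι := Nat.cast_nonneg _
      exact (add_le_add a1 a2).trans (by nlinarith)
    refine (abs_le_of_sq_le_sq' e2 (by positivity)).2.trans (le_mul_of_one_le_right (by positivity) ?_)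
    have : 0 ≤ ∑ a, ‖F.D p (fun a x => dg (A a x)) a (F.up p A s) y‖ := Finset.sum_nonneg fun _ _ => norm_nonneg _
    nlinarith [sq_nonneg ‖F.up p A s y‖]

end

end Crest.Agent.X212.Bern84
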