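import Crest.Agent.X212.Bern84.Eqv

/-!
# BERN (helper84): the prolongation `Sys.pro`
-/

set_option autoImplicit false
set_option linter.unusedSectionVars false
set_option linter.deprecated false
open scoped ContDiff Topology RealInnerProductSpace
open Set Filter

namespace Crest.Agent.X212.Bern84

noncomputable section

variable {P E ι : Type*} [NormedAddCommGroup P] [NormedSpace ℝ P] [NormedAddCommGroup E]
  [NormedSpace ℝ E] [Fintype ι] {F : Fm P E ι}

section sm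

variable {V G Z V' : Type*} [NormedAddCommGroup V] [NormedSpace ℝ V] [NormedAddCommGroup G] [NormedSpace ℝ G]
  [NormedAddCommGroup Z] [NormedSpace ℝ Z] [NormedAddCommGroup V'] [NormedSpace ℝ V']

theorem sm_fst {O : Set Z} {f : Z → G} (hf : ContDiffOn ℝ ∞ f O) :
    ContDiffOn ℝ ∞ (fun q : Z × V' => f q.1) (O ×ˢ univ) :=
  hf.comp contDiff_fst.contDiffOn fun _ hq => hq.1

theorem sm_snd {O : Set Z} (T : V' →L[ℝ] V) : ContDiffOn ℝ ∞ (fun q : Z × V' => T q.2) (O ×ˢ univ) :=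
  (T.contDiff.comp contDiff_snd).contDiffOn

theorem sm_lift {O : Set Z} {f : Z × V → G} (hf : ContDiffOn ℝ ∞ f (O ×ˢ univ)) (T : V' →L[ℝ] V) :
    ContDiffOn ℝ ∞ (fun q : Z × V' => f (q.1, T q.2)) (O ×ˢ univ) :=
  hf.comp (contDiff_fst.prodMk (T.contDiff.comp contDiff_snd)).contDiffOn fun _ hq => ⟨hq.1, mem_univ _⟩

theorem sm_pr {O : Set Z} (o : Option ι) : ContDiffOn ℝ ∞ (fun q : Z × V1 ι V => pr o q.2) (O ×ˢ univ) :=
  sm_snd (V' := V1 ι V) (pr o)

theorem sm_l0 {O : Set Z} {f : Z × V → G} (hf : ContDiffOn ℝ ∞ f (O ×ˢ univ)) :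
    ContDiffOn ℝ ∞ (fun q : Z × V1 ι V => f (q.1, pr none q.2)) (O ×ˢ univ) :=
  sm_lift (V' := V1 ι V) hf (pr none)

theorem sm_clm {s : Set Z} (T : G →L[ℝ] V') {f : Z → G} (hf : ContDiffOn ℝ ∞ f s) :
    ContDiffOn ℝ ∞ (fun q => T (f q)) s := T.contDiff.comp_contDiffOn hf

end sm

namespace Sys

variable {V : Type*} [NormedAddCommGroup V] [NormedSpace ℝ V] (S : Sys F V)

/-- the derivative of a coefficient function along `e a` when `U = v`, `D_a U = w`, without the target term -/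
def raw {G : Type*} [NormedAddCommGroup G] [NormedSpace ℝ G] (f : (P × E) × V → G) (a : ι) (z : P × E)
    (v w : V) : G := fderiv ℝ f (z, v) ((0, F.e a z), w - S.W a z v)

/-- covariant derivative of `Q (z, U)` -/
def nQ (a : ι) (z : P × E) (v w : V) : V := S.raw S.Q a z v w + S.W a z (S.Q (z, v))

/-- covariant derivative of an operator valued coefficient `T (z, U)` -/
def nT (T : (P × E) × V → V →L[ℝ] V) (a : ι) (z : P × E) (v w : V) : V →L[ℝ] V :=
  S.raw T a z v w + S.W a z * T (z, v) - T (z, v) * S.W a z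

theorem sm_raw {G V' : Type*} [NormedAddCommGroup G] [NormedSpace ℝ G] [NormedAddCommGroup V'] [NormedSpace ℝ V']
    {f : (P × E) × V → G} (hf : ContDiffOn ℝ ∞ f (F.O ×ˢ univ)) (a : ι) (T T' : V' →L[ℝ] V) :
    ContDiffOn ℝ ∞ (fun q : (P × E) × V' => S.raw f a q.1 (T q.2) (T' q.2)) (F.O ×ˢ univ) :=
  (sm_lift (fd_smOn (opn_prod F.opn) hf) T).clm_apply
    ((contDiffOn_const.prodMk (sm_fst (F.sme a))).prodMk
      ((sm_snd T').sub ((sm_fst (S.smW a)).clm_apply (sm_snd T))))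

theorem sm_nQ {V' : Type*} [NormedAddCommGroup V'] [NormedSpace ℝ V'] (a : ι) (T T' : V' →L[ℝ] V) :
    ContDiffOn ℝ ∞ (fun q : (P × E) × V' => S.nQ a q.1 (T q.2) (T' q.2)) (F.O ×ˢ univ) :=
  (S.sm_raw S.smQ a T T').add ((sm_fst (S.smW a)).clm_apply (sm_lift S.smQ T))

theorem sm_nT {V' : Type*} [NormedAddCommGroup V'] [NormedSpace ℝ V'] {f : (P × E) × V → V →L[ℝ] V}
    (hf : ContDiffOn ℝ ∞ f (F.O ×ˢ univ)) (a : ι) (T T' : V' →L[ℝ] V) :
    ContDiffOn ℝ ∞ (fun q : (P × E) × V' => S.nT f a q.1 (T q.2) (T' q.2)) (F.O ×ˢ univ) :=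
  ((S.sm_raw hf a T T').add ((sm_fst (S.smW a)).mul (sm_lift hf T))).sub
    ((sm_lift hf T).mul (sm_fst (S.smW a)))

theorem sm_nQ1 (a : ι) (o : Option ι) :
    ContDiffOn ℝ ∞ (fun q : (P × E) × V1 ι V => S.nQ a q.1 (pr none q.2) (pr o q.2)) (F.O ×ˢ univ) :=
  S.sm_nQ (V' := V1 ι V) a (pr none) (pr o)

theorem sm_nT1 {f : (P × E) × V → V →L[ℝ] V} (hf : ContDiffOn ℝ ∞ f (F.O ×ˢ univ)) (a : ι) (o : Option ι) :
    ContDiffOn ℝ ∞ (fun q : (P × E) × V1 ι V => S.nT f a q.1 (pr none q.2) (pr o q.2)) (F.O ×ˢ univ) :=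
  S.sm_nT (V' := V1 ι V) hf a (pr none) (pr o)

theorem eq_nQ (a : ι) {z : P × E} (hz : z ∈ F.O) {g : V →L[ℝ] V} (hg : g ∈ S.Γ z) (v w : V) :
    S.nQ a z (g v) (g w) = g (S.nQ a z v w) := by
  obtain ⟨γ, h1, h2, h3⟩ := S.par a z hz g hg
  have := eqv_vec F.opn S.smQ hz ((0 : P), F.e a z) h3 h3 (by
    filter_upwards [h1, line_ev F.opn hz ((0 : P), F.e a z)] with t ht ho v using S.eqQ _ ho _ ht v)
    v (w - S.W a z v)
  rw [h2] at this
  have e : (g * S.W a z - S.W a z * g) v + g (w - S.W a z v) = g w - S.W a z (g v) := by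
    simp
  rw [e] at this
  unfold nQ raw
  rw [this, S.eqQ z hz g hg]
  simp
  abel

theorem eq_nT {T : (P × E) × V → V →L[ℝ] V} (hT : ContDiffOn ℝ ∞ T (F.O ×ˢ univ))
    (hE : ∀ z ∈ F.O, ∀ g ∈ S.Γ z, ∀ v, T (z, g v) * g = g * T (z, v))
    (a : ι) {z : P × E} (hz : z ∈ F.O) {g : V →L[ℝ] V} (hg : g ∈ S.Γ z) (v w : V) :
    S.nT T a z (g v) (g w) * g = g * S.nT T a z v w := by
  obtain ⟨γ, h1, h2, h3⟩ := S.par a z hz g hg
  have := eqv_op F.opn hT hz ((0 : P), F.e a z) h3 h3 (by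
    filter_upwards [h1, line_ev F.opn hz ((0 : P), F.e a z)] with t ht ho v using hE _ ho _ ht v)
    v (w - S.W a z v)
  rw [h2] at this
  have e : (g * S.W a z - S.W a z * g) v + g (w - S.W a z v) = g w - S.W a z (g v) := by
    simp
  rw [e] at this
  have h := hE z hz g hg v
  unfold nT raw
  set a1 := fderiv ℝ T (z, g v) ((0, F.e a z), g w - S.W a z (g v))
  set a2 := fderiv ℝ T (z, v) ((0, F.e a z), w - S.W a z v)
  set t1 := T (z, g v)
  set t2 := T (z, v)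
  set W := S.W a z
  have e1 : a1 * g = (g * W - W * g) * t2 + g * a2 - t1 * (g * W - W * g) := by
    rw [← this]; abel
  have e2 : t1 * (g * W) = g * t2 * W := by rw [← mul_assoc, h]
  have e3 : W * t1 * g = W * g * t2 := by rw [mul_assoc, h, mul_assoc]
  rw [sub_mul, add_mul, e1, e3, mul_sub t1, e2]
  noncomm_ring

/-- first order coefficients of the prolongation -/
def L1 (m : ι) (q : (P × E) × V1 ι V) : V1 ι V →L[ℝ] V1 ι V :=
  ∑ a, inj (some m) ∘L (S.L a (q.1, pr none q.2) ∘L pr (some a))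
    + ∑ c, ∑ a, (F.c a c m q.1 + F.c m c a q.1) • (inj (some c) ∘L pr (some a))

/-- component `some c` of the zero order term of the prolongation -/
def Qc (c : ι) (q : (P × E) × V1 ι V) : V :=
  ∑ a, S.nT (S.L a) c q.1 (pr none q.2) (pr (some c) q.2) (pr (some a) q.2)
    + S.nQ c q.1 (pr none q.2) (pr (some c) q.2)
    + ∑ a, ((2 : ℝ) • S.Φ a c (q.1, pr none q.2) (pr (some a) q.2)
      + S.nT (S.Φ a c) a q.1 (pr none q.2) (pr (some a) q.2) (pr none q.2)
      + ∑ d, fderiv ℝ (F.c a c d) q.1 (0, F.e a q.1) • pr (some d) q.2)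

/-- component `none` of the zero order term of the prolongation -/
def Q0 (q : (P × E) × V1 ι V) : V :=
  ∑ a, S.L a (q.1, pr none q.2) (pr (some a) q.2) + S.Q (q.1, pr none q.2)

/-- zero order term of the prolongation -/
def Q1 (q : (P × E) × V1 ι V) : V1 ι V := inj none (S.Q0 q) + ∑ c, inj (some c) (S.Qc c q)

theorem pr_L1_none (m : ι) (q : (P × E) × V1 ι V) (y : V1 ι V) : pr none (S.L1 m q y) = 0 := by
  simp [L1]

open Classical in
theorem pr_L1_some (m c : ι) (q : (P × E) × V1 ι V) (y : V1 ι V) : pr (some c) (S.L1 m q y) =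
    (if c = m then ∑ a, S.L a (q.1, pr none q.2) (pr (some a) y) else 0)
      + ∑ a, (F.c a c m q.1 + F.c m c a q.1) • pr (some a) y := by
  have e : S.L1 m q y = inj (some m) (∑ a, S.L a (q.1, pr none q.2) (pr (some a) y))
      + ∑ c, inj (some c) (∑ a, (F.c a c m q.1 + F.c m c a q.1) • pr (some a) y) := by
    simp [L1]
  rw [e, map_add]
  congr 1
  · split_ifs with h
    · subst h; rw [pr_inj]
    · exact pr_inj_ne (by simpa using h) _
  · rw [map_sum, sum_pr_some c fun c => ∑ a, (F.c a c m q.1 + F.c m c a q.1) • pr (some a) y]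

theorem pr_Q1_none (q : (P × E) × V1 ι V) : pr none (S.Q1 q) = S.Q0 q := by
  simp [Q1]

theorem pr_Q1_some (c : ι) (q : (P × E) × V1 ι V) : pr (some c) (S.Q1 q) = S.Qc c q := by
  rw [Q1, map_add, map_sum, sum_pr_some c fun c => S.Qc c q]; simp

theorem sm_L1 (m : ι) : ContDiffOn ℝ ∞ (S.L1 m) (F.O ×ˢ univ) := by
  refine ContDiffOn.add (ContDiffOn.sum fun a _ => ?_)
    (ContDiffOn.sum fun c _ => ContDiffOn.sum fun a _ => ?_)
  · exact contDiffOn_const.clm_comp ((sm_l0 (S.smL a)).clm_comp contDiffOn_const)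
  · exact ((sm_fst (F.smc a c m)).add (sm_fst (F.smc m c a))).smul contDiffOn_const

theorem sm_Qc (c : ι) : ContDiffOn ℝ ∞ (S.Qc c) (F.O ×ˢ univ) := by
  unfold Qc
  refine ContDiffOn.add (ContDiffOn.add (ContDiffOn.sum fun a _ => ?_) (S.sm_nQ1 c (some c)))
    (ContDiffOn.sum fun a _ => ContDiffOn.add (ContDiffOn.add ?_ ?_) (ContDiffOn.sum fun d _ => ?_))
  · exact (S.sm_nT1 (S.smL a) c (some c)).clm_apply (sm_pr _)
  · exact ((sm_l0 (S.smΦ a c)).clm_apply (sm_pr _)).const_smul _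
  · exact (S.sm_nT1 (S.smΦ a c) a (some a)).clm_apply (sm_pr _)
  · exact ((sm_fst (fd_smOn F.opn (F.smc a c d))).clm_apply
      (contDiffOn_const.prodMk (sm_fst (F.sme a)))).smul (sm_pr _)

theorem sm_Q0 : ContDiffOn ℝ ∞ S.Q0 (F.O ×ˢ univ) := by
  unfold Q0
  exact (ContDiffOn.sum fun a _ => (sm_l0 (S.smL a)).clm_apply (sm_pr _)).add (sm_l0 S.smQ)

theorem sm_Q1 : ContDiffOn ℝ ∞ S.Q1 (F.O ×ˢ univ) := by
  unfold Q1
  exact (sm_clm _ S.sm_Q0).add (ContDiffOn.sum fun c _ => sm_clm _ (S.sm_Qc c))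

theorem app_of_mul {T T' g : V →L[ℝ] V} (h : T' * g = g * T) (v : V) : T' (g v) = g (T v) := by
  simpa using congrArg (fun f : V →L[ℝ] V => f v) h

/-- the prolonged system -/
def pro : Sys F (V1 ι V) where
  W a z := dg (S.W a z)
  Γ z := dg '' S.Γ z
  L := S.L1
  Q := S.Q1
  Φ a b q := dg (S.Φ a b (q.1, pr none q.2))
  smW a := sm_clm _ (S.smW a)
  smL := S.sm_L1
  smQ := S.sm_Q1
  smΦ a b := sm_clm _ (sm_l0 (S.smΦ a b))
  par := by
    rintro a z hz _ ⟨g, hg, rfl⟩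
    obtain ⟨γ, h1, h2, h3⟩ := S.par a z hz g hg
    refine ⟨fun t => dg (γ t), ?_, by simp only [h2], ?_⟩
    · filter_upwards [h1] with t ht using ⟨_, ht, rfl⟩
    · rw [← dg_mul, ← dg_mul, ← map_sub]
      exact (dg : _ →L[ℝ] (V1 ι V →L[ℝ] V1 ι V)).hasFDerivAt.comp_hasDerivAt (0 : ℝ) h3
  eqL := by
    classical
    rintro m z hz _ ⟨g, hg, rfl⟩ v
    ext1 y
    refine v1_ext fun o => ?_
    cases o with
    | none => simp [pr_L1_none]
    | some c =>
      simp only [ContinuousLinearMap.mul_apply, pr_dg, pr_L1_some, map_add, map_sum, map_smul,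
        app_of_mul (S.eqL _ z hz g hg _)]
      split_ifs <;> simp
  eqQ := by
    rintro z hz _ ⟨g, hg, rfl⟩ v
    refine v1_ext fun o => ?_
    cases o with
    | none =>
      simp only [pr_Q1_none, pr_dg, Q0, map_add, map_sum, app_of_mul (S.eqL _ z hz g hg _), S.eqQ z hz g hg]
    | some c =>
      simp only [pr_Q1_some, pr_dg, Qc, map_add, map_sum, map_smul, app_of_mul (S.eqΦ _ _ z hz g hg _),
        S.eq_nQ _ hz hg, app_of_mul (S.eq_nT (S.smL _) (S.eqL _) _ hz hg _ _),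
        app_of_mul (S.eq_nT (S.smΦ _ _) (S.eqΦ _ _) _ hz hg _ _)]
  eqΦ := by
    rintro a b z hz _ ⟨g, hg, rfl⟩ v
    simp only [pr_dg]
    rw [← dg_mul, ← dg_mul, S.eqΦ a b z hz g hg]

end Sys

end

end Crest.Agent.X212.Bern84
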