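import Crest.Agent.X212.Bern84.YM

/-!
# BERN (helper84): homogeneous families `HY` and rescaling of solutions
-/

set_option autoImplicit false
set_option linter.unusedSectionVars false
set_option linter.deprecated false
open scoped ContDiff Topology RealInnerProductSpace
open Set Filter

namespace Crest.Agent.X212.Bern84
open Cyc79 (BB Bd bb_const bb_fst bb_snd bx)

noncomputable section

theorem bb_base {Z Z' V G : Type} [NormedAddCommGroup Z] [NormedSpace ℝ Z] [NormedAddCommGroup Z'] [NormedSpace ℝ Z']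
    [NormedAddCommGroup V] [NormedSpace ℝ V] [NormedAddCommGroup G] [NormedSpace ℝ G] {O : Set Z} {O' : Set Z'}
    {f : Z × V → G} (hf : BB O f) (hO : IsOpen O') {ψ : Z' → Z} (hψ : ContDiffOn ℝ ∞ ψ O') (hm : MapsTo ψ O' O) :
    BB O' fun q : Z' × V => f (ψ q.1, q.2) := fun k T R a b => by
  have h1 : BB O' fun q : Z' × V => (ψ q.1, q.2) :=
    (bb_fst hO hψ).prod (bb_snd (ContinuousLinearMap.id ℝ V))
  exact Pat85.cb_comp (bx V T R) (bx V (ψ '' T) R) id k (g := fun _ => f) (ψ := fun _ (q : Z' × V) => (ψ q.1, q.2))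
    (hf k _ R (a.image_of_continuousOn (hψ.continuousOn.mono b)) (image_subset_iff.2 fun z hz => hm (b hz)))
    (h1 0 T R a b).smooth (fun j _ => h1.fd j T R a b)
    (tendsto_principal_principal.2 fun q hq => ⟨⟨_, hq.1, rfl⟩, hq.2⟩)

variable {P E ι : Type} [NormedAddCommGroup P] [NormedSpace ℝ P] [NormedAddCommGroup E]
  [NormedSpace ℝ E] [Fintype ι] {F : Fm P E ι}

/-- `((p, x₁, λ), y) ↦ (p, x₁ + λ y)` -/
def sc (z : (P × E × ℝ) × E) : P × E := (z.1.1, z.1.2.1 + z.1.2.2 • z.2)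

theorem sm_sc : ContDiff ℝ ∞ (sc : (P × E × ℝ) × E → P × E) := by
  unfold sc; fun_prop

theorem sc_line (z : (P × E × ℝ) × E) (v : E) (t : ℝ) :
    sc (z + t • ((0 : P × E × ℝ), v)) = sc z + (z.1.2.2 * t) • ((0 : P), v) := by
  simp [sc, smul_smul, add_assoc]

theorem fd_sc {G : Type} [NormedAddCommGroup G] [NormedSpace ℝ G] {f : P × E → G} {z : (P × E × ℝ) × E}
    (hf : DifferentiableAt ℝ f (sc z)) (v : E) :
    fderiv ℝ (fun z => f (sc z)) z (0, v) = z.1.2.2 • fderiv ℝ f (sc z) (0, v) := by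
  have hs : DifferentiableAt ℝ (sc : (P × E × ℝ) × E → P × E) z := dAt sm_sc.contDiffAt
  have h1 : HasDerivAt (fun t : ℝ => sc (z + t • ((0 : P × E × ℝ), v))) (fderiv ℝ sc z (0, v)) 0 := by
    have : HasFDerivAt sc (fderiv ℝ sc z) (z + (0 : ℝ) • ((0 : P × E × ℝ), v)) := by simpa using hs.hasFDerivAt
    exact this.comp_hasDerivAt (0 : ℝ) (line_der z _)
  have h2 : HasDerivAt (fun t : ℝ => sc (z + t • ((0 : P × E × ℝ), v))) (z.1.2.2 • ((0 : P), v)) 0 := by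
    simp only [sc_line, mul_comm z.1.2.2, mul_smul]
    exact line_der _ _
  rw [show (fun z => f (sc z)) = f ∘ sc from rfl, fderiv_comp z hf hs, ContinuousLinearMap.comp_apply,
    h1.unique h2, map_smul]

/-- the rescaled frame -/
def Fm.scale (F : Fm P E ι) : Fm (P × E × ℝ) E ι where
  O := sc ⁻¹' F.O
  e a z := F.e a (sc z)
  c a b d z := z.1.2.2 * F.c a b d (sc z)
  opn := F.opn.preimage sm_sc.continuous
  sme a := (F.sme a).comp sm_sc.contDiffOn fun _ h => h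
  smc a b d := (by fun_prop : ContDiff ℝ ∞ fun z : (P × E × ℝ) × E => z.1.2.2).contDiffOn.mul
    ((F.smc a b d).comp sm_sc.contDiffOn fun _ h => h)
  br a b z hz := by
    rw [fd_sc (dOn F.opn (F.sme b) hz), fd_sc (dOn F.opn (F.sme a) hz), ← smul_sub, F.br a b _ hz,
      Finset.smul_sum]
    simp only [mul_smul]

section del

variable {V : Type} [NormedAddCommGroup V] [NormedSpace ℝ V]

/-- scaling of `w` -/
def dw (π : V →L[ℝ] V) (s : ℝ) : V →L[ℝ] V := 1 - π + s • π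

/-- scaling of `(w, D w, F)` -/
def del (π : V →L[ℝ] V) (s : ℝ) (u : V2 ι V) : V2 ι V :=
  gat (el3 (dw π s (pr none u)) (fun a => s • dw π s (pr (iD a) u)) fun a b => s ^ 2 • pr (iF a b) u)

@[simp] theorem pr_del0 (π : V →L[ℝ] V) (s : ℝ) (u : V2 ι V) : pr none (del π s u) = dw π s (pr none u) :=
  pr_gat _ _

@[simp] theorem pr_delD (π : V →L[ℝ] V) (s : ℝ) (u : V2 ι V) (a : ι) :
    pr (iD a) (del π s u) = s • dw π s (pr (iD a) u) := pr_gat _ _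

@[simp] theorem pr_delF (π : V →L[ℝ] V) (s : ℝ) (u : V2 ι V) (a b : ι) :
    pr (iF a b) (del π s u) = s ^ 2 • pr (iF a b) u := pr_gat _ _

theorem Tan.smul {Γ : Set (V →L[ℝ] V)} {ξ : V →L[ℝ] V} (h : Tan Γ ξ) (s : ℝ) : Tan Γ (s • ξ) := by
  obtain ⟨γ, h1, h2, h3⟩ := h
  have hs : HasDerivAt (fun t : ℝ => s * t) s 0 := by simpa using (hasDerivAt_id (0 : ℝ)).const_mul s
  have ht : Tendsto (fun t : ℝ => s * t) (𝓝 0) (𝓝 0) := by simpa using hs.continuousAt.tendsto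
  refine ⟨fun t => γ (s * t), ht.eventually h1, by simpa using h2, ?_⟩
  exact HasDerivAt.scomp (0 : ℝ) (by simpa using h3) hs

end del

/-- a Yang–Mills–Higgs type system with a scale variable -/
structure HY (F : Fm P E ι) (V : Type) [NormedAddCommGroup V] [NormedSpace ℝ V] where
  W : ι → P × E → V →L[ℝ] V
  Γ : P × E → Set (V →L[ℝ] V)
  π : V →L[ℝ] V
  Φ : ι → ι → ((P × E) × ℝ) × V2 ι V → V →L[ℝ] V
  Q : ((P × E) × ℝ) × V2 ι V → V
  J : ι → ((P × E) × ℝ) × V2 ι V → V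
  B : ι → ι → ι → ((P × E) × ℝ) × V2 ι V → V
  idem : ∀ v, π (π v) = π v
  smW : ∀ a, ContDiffOn ℝ ∞ (W a) F.O
  par : ∀ a, ∀ z ∈ F.O, ∀ g ∈ Γ z, ∃ γ : ℝ → V →L[ℝ] V,
    (∀ᶠ t in 𝓝 (0 : ℝ), γ t ∈ Γ (z + t • ((0 : P), F.e a z))) ∧ γ 0 = g ∧
      HasDerivAt γ (g * W a z - W a z * g) 0
  bbΦ : ∀ a b, BB (F.O ×ˢ univ) (Φ a b)
  bbQ : BB (F.O ×ˢ univ) Q
  bbJ : ∀ b, BB (F.O ×ˢ univ) (J b)
  bbB : ∀ a b c, BB (F.O ×ˢ univ) (B a b c)
  eqΦ : ∀ a b, ∀ z ∈ F.O, ∀ s, ∀ g ∈ Γ z, ∀ u, Φ a b ((z, s), dg g u) * g = g * Φ a b ((z, s), u)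
  eqQ : ∀ z ∈ F.O, ∀ s, ∀ g ∈ Γ z, ∀ u, Q ((z, s), dg g u) = g (Q ((z, s), u))
  eqJ : ∀ b, ∀ z ∈ F.O, ∀ s, ∀ g ∈ Γ z, ∀ u, J b ((z, s), dg g u) = g (J b ((z, s), u))
  eqB : ∀ a b c, ∀ z ∈ F.O, ∀ s, ∀ g ∈ Γ z, ∀ u, B a b c ((z, s), dg g u) = g (B a b c ((z, s), u))
  hoΦ : ∀ a b, ∀ z ∈ F.O, ∀ s > 0, ∀ u, Φ a b ((z, s), del π s u) = s ^ 2 • Φ a b ((z, 1), u)
  hoQ : ∀ z ∈ F.O, ∀ s > 0, ∀ u, Q ((z, s), del π s u) = s ^ 2 • dw π s (Q ((z, 1), u))
  hoJ : ∀ b, ∀ z ∈ F.O, ∀ s > 0, ∀ u, J b ((z, s), del π s u) = s ^ 3 • J b ((z, 1), u)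
  hoB : ∀ a b c, ∀ z ∈ F.O, ∀ s > 0, ∀ u, B a b c ((z, s), del π s u) = s ^ 3 • B a b c ((z, 1), u)
  van : ∀ z ∈ F.O, ∀ u, π (pr none u) = 0 → (∀ a, π (pr (iD a) u) = 0) → (∀ a b, pr (iF a b) u = 0) →
    (∀ a b, Φ a b ((z, 0), u) = 0) ∧ π (Q ((z, 0), u)) = Q ((z, 0), u)

namespace HY

variable {V : Type} [NormedAddCommGroup V] [NormedSpace ℝ V] (Y : HY F V)

theorem bb1 {G : Type} [NormedAddCommGroup G] [NormedSpace ℝ G] {f : ((P × E) × ℝ) × V2 ι V → G}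
    (h : BB (F.O ×ˢ univ) f) : BB F.O fun q : (P × E) × V2 ι V => f ((q.1, 1), q.2) :=
  bb_base h F.opn (ψ := fun z => (z, (1 : ℝ))) (by fun_prop) fun _ hz => ⟨hz, mem_univ _⟩

theorem bbs {G : Type} [NormedAddCommGroup G] [NormedSpace ℝ G] {f : ((P × E) × ℝ) × V2 ι V → G}
    (h : BB (F.O ×ˢ univ) f) :
    BB F.scale.O fun q : ((P × E × ℝ) × E) × V2 ι V => f ((sc q.1, q.1.1.2.2), q.2) :=
  bb_base h F.scale.opn (ψ := fun z => (sc z, z.1.2.2)) (sm_sc.prodMk (by fun_prop)).contDiffOn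
    fun _ hz => ⟨hz, mem_univ _⟩

/-- the real system (scale `1`) -/
def one : YM F V where
  W := Y.W
  Γ := Y.Γ
  Φ a b q := Y.Φ a b ((q.1, 1), q.2)
  Q q := Y.Q ((q.1, 1), q.2)
  J b q := Y.J b ((q.1, 1), q.2)
  B a b c q := Y.B a b c ((q.1, 1), q.2)
  smW := Y.smW
  par := Y.par
  bbΦ a b := bb1 (Y.bbΦ a b)
  bbQ := bb1 Y.bbQ
  bbJ b := bb1 (Y.bbJ b)
  bbB a b c := bb1 (Y.bbB a b c)
  eqΦ a b z hz := Y.eqΦ a b z hz 1
  eqQ z hz := Y.eqQ z hz 1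
  eqJ b z hz := Y.eqJ b z hz 1
  eqB a b c z hz := Y.eqB a b c z hz 1

/-- the rescaled system -/
def scl : YM F.scale V where
  W a z := z.1.2.2 • Y.W a (sc z)
  Γ z := Y.Γ (sc z)
  Φ a b q := Y.Φ a b ((sc q.1, q.1.1.2.2), q.2)
  Q q := Y.Q ((sc q.1, q.1.1.2.2), q.2)
  J b q := Y.J b ((sc q.1, q.1.1.2.2), q.2)
  B a b c q := Y.B a b c ((sc q.1, q.1.1.2.2), q.2)
  smW a := (by fun_prop : ContDiff ℝ ∞ fun z : (P × E × ℝ) × E => z.1.2.2).contDiffOn.smul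
    ((Y.smW a).comp sm_sc.contDiffOn fun _ h => h)
  par a z hz g hg := by
    obtain ⟨γ, h1, h2, h3⟩ := Y.par a (sc z) hz g hg
    set s := z.1.2.2
    have hs : HasDerivAt (fun t : ℝ => s * t) s 0 := by simpa using (hasDerivAt_id (0 : ℝ)).const_mul s
    have ht : Tendsto (fun t : ℝ => s * t) (𝓝 0) (𝓝 0) := by simpa using hs.continuousAt.tendsto
    refine ⟨fun t => γ (s * t), ?_, by simpa using h2, ?_⟩
    · filter_upwards [ht.eventually h1] with t h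
      rwa [sc_line]
    · rw [mul_smul_comm, smul_mul_assoc, ← smul_sub]
      exact HasDerivAt.scomp (0 : ℝ) (by simpa using h3) hs
  bbΦ a b := bbs (Y.bbΦ a b)
  bbQ := bbs Y.bbQ
  bbJ b := bbs (Y.bbJ b)
  bbB a b c := bbs (Y.bbB a b c)
  eqΦ a b z hz := Y.eqΦ a b (sc z) hz z.1.2.2
  eqQ z hz := Y.eqQ (sc z) hz z.1.2.2
  eqJ b z hz := Y.eqJ b (sc z) hz z.1.2.2
  eqB a b c z hz := Y.eqB a b c (sc z) hz z.1.2.2

end HY

section sol

variable {p : P} {x₁ : E} {s : ℝ}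

theorem dd_af {G : Type} [NormedAddCommGroup G] [NormedSpace ℝ G] {f : E → G} {y : E} (a : ι)
    (hf : DifferentiableAt ℝ f (x₁ + s • y)) :
    dd (F.scale.X (p, x₁, s) a) (fun y => f (x₁ + s • y)) y = s • dd (F.X p a) f (x₁ + s • y) := by
  have h1 : HasFDerivAt (fun y : E => x₁ + s • y) (s • ContinuousLinearMap.id ℝ E) y :=
    ((hasFDerivAt_id y).const_smul s).const_add x₁
  rw [dd_comp (s := fun y => x₁ + s • y) hf h1.differentiableAt, dd, h1.fderiv, dd, ← map_smul]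
  rfl

variable {V : Type} [NormedAddCommGroup V] [InnerProductSpace ℝ V] {A : ι → E → V →L[ℝ] V}

theorem d_af {G : Type} [NormedAddCommGroup G] [NormedSpace ℝ G] {f : E → G} {y : E}
    (hf : DifferentiableAt ℝ f (x₁ + s • y)) : DifferentiableAt ℝ (fun y => f (x₁ + s • y)) y :=
  hf.comp y (by fun_prop : DifferentiableAt ℝ (fun y : E => x₁ + s • y) y)

theorem sm_af {G : Type} [NormedAddCommGroup G] [NormedSpace ℝ G] {f : E → G} {Ω : Set E}
    (hf : ContDiffOn ℝ ∞ f Ω) : ContDiffOn ℝ ∞ (fun y => f (x₁ + s • y)) ((fun y => x₁ + s • y) ⁻¹' Ω) :=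
  hf.comp (by fun_prop : ContDiff ℝ ∞ fun y : E => x₁ + s • y).contDiffOn fun _ h => h

theorem D_af {f : E → V} {y : E} (a : ι) (T : V →L[ℝ] V) (hf : DifferentiableAt ℝ f (x₁ + s • y))
    (hT : ∀ v, A a (x₁ + s • y) (T v) = T (A a (x₁ + s • y) v)) :
    F.scale.D (p, x₁, s) (fun a y => s • A a (x₁ + s • y)) a (fun y => T (f (x₁ + s • y))) y
      = s • T (F.D p A a f (x₁ + s • y)) := by
  rw [Fm.D, cd_eq, dd_clm T (d_af hf), dd_af a hf, Fm.D, cd_eq]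
  simp [hT]

theorem D_af' {f : E → V} {y : E} (a : ι) (r : ℝ) (T : V →L[ℝ] V) (hf : DifferentiableAt ℝ f (x₁ + s • y))
    (hT : ∀ v, A a (x₁ + s • y) (T v) = T (A a (x₁ + s • y) v)) :
    F.scale.D (p, x₁, s) (fun a y => s • A a (x₁ + s • y)) a (fun y => r • T (f (x₁ + s • y))) y
      = (s * r) • T (F.D p A a f (x₁ + s • y)) := by
  have := D_af (F := F) (p := p) (A := A) a (r • T) hf (fun v => by simp [hT])
  simpa [mul_smul] using this

variable {Y : HY F V} {Ω : Set E} {w : E → V} {G : ι → ι → E → V}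

theorem dw_comm {π T : V →L[ℝ] V} (h : ∀ v, T (π v) = π (T v)) (s : ℝ) (v : V) : T (dw π s v) = dw π s (T v) := by
  simp [dw, h]

theorem yup_af (h : YSol Y.one p Ω A w G) (hπ : ∀ a, ∀ x ∈ Ω, ∀ v, A a x (Y.π v) = Y.π (A a x v)) {y : E}
    (hy : x₁ + s • y ∈ Ω) :
    F.scale.yup (p, x₁, s) (fun a y => s • A a (x₁ + s • y)) (fun y => dw Y.π s (w (x₁ + s • y)))
      (fun a b y => s ^ 2 • G a b (x₁ + s • y)) y = del Y.π s (F.yup p A w G (x₁ + s • y)) := by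
  refine v1_ext (cases3 ?_ (fun c => ?_) fun b c => ?_)
  · simp
  · rw [pr_yupD, pr_delD, pr_yupD, D_af c _ (dOn h.opn h.smw hy) (dw_comm (hπ c _ hy) s)]
  · simp

/-- **rescaling of solutions** -/
theorem YSol.scale (h : YSol Y.one p Ω A w G) (hπ : ∀ a, ∀ x ∈ Ω, ∀ v, A a x (Y.π v) = Y.π (A a x v))
    (x₁ : E) (hs : 0 < s) :
    YSol Y.scl (p, x₁, s) ((fun y => x₁ + s • y) ⁻¹' Ω) (fun a y => s • A a (x₁ + s • y))
      (fun y => dw Y.π s (w (x₁ + s • y))) fun a b y => s ^ 2 • G a b (x₁ + s • y) := by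
  have ho : IsOpen ((fun y => x₁ + s • y) ⁻¹' Ω) := h.opn.preimage (by fun_prop)
  have hG : ∀ a b c, ∀ y ∈ (fun y => x₁ + s • y) ⁻¹' Ω,
      F.scale.D (p, x₁, s) (fun a y => s • A a (x₁ + s • y)) a (fun y => s ^ 2 • G b c (x₁ + s • y)) y
        = s ^ 3 • F.D p A a (G b c) (x₁ + s • y) := fun a b c y hy => by
    have := D_af' (F := F) (p := p) (A := A) a (s ^ 2) 1 (dOn h.opn (h.smG b c) hy) fun _ => rfl
    rwa [← pow_succ'] at this
  refine
    { opn := ho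
      mem := fun y hy => h.mem (x₁ + s • y) hy
      smA := fun a => (sm_af (h.smA a)).const_smul s
      skew := fun a y hy v => by simp [inner_smul_left, h.skew a _ hy v]
      smw := sm_clm _ (sm_af h.smw)
      smG := fun a b => (sm_af (h.smG a b)).const_smul _
      tan := fun a y hy => ?_
      curv := fun a b y hy => ?_
      anti := fun a b y hy => by rw [h.anti a b _ hy, smul_neg]
      lap := fun y hy => ?_
      div := fun b y hy => ?_
      bia := fun a b c y hy => ?_ }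
  · have := (h.tan a _ hy).smul s
    rwa [smul_sub] at this
  · rw [yup_af h hπ hy]
    refine Eq.trans ?_ (Y.hoΦ a b _ (h.mem _ hy) s hs _).symm
    have e : ∀ a b, dd (F.scale.X (p, x₁, s) a) (fun y => s • A b (x₁ + s • y)) y
        = s ^ 2 • dd (F.X p a) (A b) (x₁ + s • y) := fun a b => by
      rw [dd_smul (differentiableAt_const s) (d_af (dOn h.opn (h.smA b) hy)), dd_const, zero_smul, zero_add,
        dd_af a (dOn h.opn (h.smA b) hy), smul_smul, sq]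
    have k := h.curv a b _ hy
    change _ = Y.Φ a b (((p, x₁ + s • y), 1), _) at k
    change _ = s ^ 2 • Y.Φ a b (((p, x₁ + s • y), 1), _)
    rw [← k]
    simp only [Fm.curv, e, smul_sub, smul_add, smul_mul_smul_comm, ← sq, Finset.smul_sum, smul_smul]
    congr 1
    refine Finset.sum_congr rfl fun d _ => ?_
    congr 1
    simp only [Fm.scale, sc]; ring
  · rw [yup_af h hπ hy]
    refine Eq.trans ?_ (Y.hoQ _ (h.mem _ hy) s hs _).symm
    have k := h.lap _ hy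
    change _ = Y.Q (((p, x₁ + s • y), 1), _) at k
    change _ = s ^ 2 • dw Y.π s (Y.Q (((p, x₁ + s • y), 1), _))
    rw [← k, Fm.Lap, Fm.Lap, map_sum, Finset.smul_sum]
    refine Finset.sum_congr rfl fun a _ => ?_
    rw [sq, ← D_af' a s _ (dOn h.opn (h.smD a h.smw) hy) (dw_comm (hπ a _ hy) s)]
    exact D_congr (evEq ho (fun y hy => D_af a _ (dOn h.opn h.smw hy) (dw_comm (hπ a _ hy) s)) hy)
  · rw [yup_af h hπ hy]
    refine Eq.trans ?_ (Y.hoJ b _ (h.mem _ hy) s hs _).symm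
    have k := h.div b _ hy
    change _ = Y.J b (((p, x₁ + s • y), 1), _) at k
    change _ = s ^ 3 • Y.J b (((p, x₁ + s • y), 1), _)
    rw [← k, Finset.smul_sum]
    exact Finset.sum_congr rfl fun a _ => hG a a b y hy
  · rw [yup_af h hπ hy]
    refine Eq.trans ?_ (Y.hoB a b c _ (h.mem _ hy) s hs _).symm
    have k := h.bia a b c _ hy
    change _ = Y.B a b c (((p, x₁ + s • y), 1), _) at k
    change _ = s ^ 3 • Y.B a b c (((p, x₁ + s • y), 1), _)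
    rw [← k, hG _ _ _ y hy, hG _ _ _ y hy, hG _ _ _ y hy, smul_add, smul_add]

end sol

end

end Crest.Agent.X212.Bern84
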