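import Crest.Agent.X212.Bern84.Pro

/-!
# BERN (helper84): `(U, D U)` solves the prolonged system
-/

set_option autoImplicit false
set_option linter.unusedSectionVars false
set_option linter.deprecated false
open scoped ContDiff Topology RealInnerProductSpace
open Set Filter

namespace Crest.Agent.X212.Bern84

noncomputable section

variable {P E ι : Type*} [NormedAddCommGroup P] [NormedSpace ℝ P] [NormedAddCommGroup E]
  [NormedSpace ℝ E] [Fintype ι] {F : Fm P E ι}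

section fm

variable {G : Type*} [NormedAddCommGroup G] [NormedSpace ℝ G] {p : P} {Ω : Set E}

theorem sm_par {f : P × E → G} (hf : ContDiffOn ℝ ∞ f F.O) (hm : ∀ x ∈ Ω, (p, x) ∈ F.O) :
    ContDiffOn ℝ ∞ (fun x => f (p, x)) Ω :=
  hf.comp (contDiff_const.prodMk contDiff_id).contDiffOn hm

theorem sm_X (hm : ∀ x ∈ Ω, (p, x) ∈ F.O) (a : ι) : ContDiffOn ℝ ∞ (F.X p a) Ω := sm_par (F.sme a) hm

theorem dd_par {f : P × E → G} (hf : ContDiffOn ℝ ∞ f F.O) {x : E} (hx : (p, x) ∈ F.O) (X : E → E) :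
    dd X (fun y => f (p, y)) x = fderiv ℝ f (p, x) (0, X x) := by
  rw [dd_comp (s := fun y => (p, y)) (dOn F.opn hf hx) (by fun_prop),
    dd_prod (differentiableAt_const _) differentiableAt_fun_id, dd_const, dd_id]

theorem sm_coef {V : Type*} [NormedAddCommGroup V] [NormedSpace ℝ V] {f : (P × E) × V → G}
    (hf : ContDiffOn ℝ ∞ f (F.O ×ˢ univ)) (hm : ∀ x ∈ Ω, (p, x) ∈ F.O) {U : E → V} (hU : ContDiffOn ℝ ∞ U Ω) :
    ContDiffOn ℝ ∞ (fun x => f ((p, x), U x)) Ω :=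
  hf.comp ((contDiff_const.prodMk contDiff_id).contDiffOn.prodMk hU) fun x hx => ⟨hm x hx, mem_univ _⟩

theorem dd_coef {V : Type*} [NormedAddCommGroup V] [NormedSpace ℝ V] {f : (P × E) × V → G}
    (hf : ContDiffOn ℝ ∞ f (F.O ×ˢ univ)) {x : E} (hx : (p, x) ∈ F.O) {U : E → V}
    (hU : DifferentiableAt ℝ U x) (X : E → E) :
    dd X (fun y => f ((p, y), U y)) x = fderiv ℝ f ((p, x), U x) ((0, X x), dd X U x) := by
  have h1 : DifferentiableAt ℝ (fun y => (p, y)) x := by fun_prop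
  rw [dd_comp (s := fun y => ((p, y), U y)) (dP F.opn hf hx _) (h1.prodMk hU), dd_prod h1 hU,
    dd_prod (differentiableAt_const _) differentiableAt_fun_id, dd_const, dd_id]

variable {A : ι → E → G →L[ℝ] G}

theorem sm_D (hΩ : IsOpen Ω) (hm : ∀ x ∈ Ω, (p, x) ∈ F.O) (hA : ∀ a, ContDiffOn ℝ ∞ (A a) Ω) (a : ι) {s : E → G}
    (hs : ContDiffOn ℝ ∞ s Ω) : ContDiffOn ℝ ∞ (F.D p A a s) Ω := cd_smOn hΩ (sm_X hm a) (hA a) hs

theorem sm_Dl (hΩ : IsOpen Ω) (hm : ∀ x ∈ Ω, (p, x) ∈ F.O) (hA : ∀ a, ContDiffOn ℝ ∞ (A a) Ω) {s : E → G}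
    (hs : ContDiffOn ℝ ∞ s Ω) : ∀ l : List ι, ContDiffOn ℝ ∞ (F.Dl p A l s) Ω
  | [] => hs
  | a :: l => sm_D hΩ hm hA a (sm_Dl hΩ hm hA hs l)

theorem sm_up (hΩ : IsOpen Ω) (hm : ∀ x ∈ Ω, (p, x) ∈ F.O) (hA : ∀ a, ContDiffOn ℝ ∞ (A a) Ω) {s : E → G}
    (hs : ContDiffOn ℝ ∞ s Ω) : ContDiffOn ℝ ∞ (F.up p A s) Ω := by
  have : F.up p A s = fun x => inj none (s x) + ∑ c, inj (some c) (F.D p A c s x) := funext (up_eq F p A s)
  rw [this]
  exact (sm_clm _ hs).add (ContDiffOn.sum fun c _ => sm_clm _ (sm_D hΩ hm hA c hs))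

/-- commutation of covariant derivatives -/
theorem D_comm (hΩ : IsOpen Ω) (hm : ∀ x ∈ Ω, (p, x) ∈ F.O) (hA : ∀ a, ContDiffOn ℝ ∞ (A a) Ω) (a b : ι)
    {s : E → G} (hs : ContDiffOn ℝ ∞ s Ω) {x : E} (hx : x ∈ Ω) :
    F.D p A a (F.D p A b s) x = F.D p A b (F.D p A a s) x + F.curv p A a b x (s x)
      + ∑ d, F.c a b d (p, x) • F.D p A d s x := by
  have h := cd_comm (dOn hΩ (sm_X hm a) hx) (dOn hΩ (sm_X hm b) hx) (dOn hΩ (hA a) hx) (dOn hΩ (hA b) hx)
    (cAt hΩ hs hx)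
  have e : dd (F.X p a) (F.X p b) x - dd (F.X p b) (F.X p a) x = ∑ d, F.c a b d (p, x) • F.e d (p, x) := by
    rw [← F.br a b _ (hm x hx)]
    exact congrArg₂ (· - ·) (dd_par (F.sme b) (hm x hx) _) (dd_par (F.sme a) (hm x hx) _)
  rw [e] at h
  have h' : F.D p A a (F.D p A b s) x = F.D p A b (F.D p A a s) x + _ := eq_add_of_sub_eq' h
  rw [h']
  simp only [Fm.curv, Fm.D, Fm.X, cd, map_sum, map_smul, smul_add, Finset.sum_add_distrib,
    ContinuousLinearMap.sub_apply, ContinuousLinearMap.sum_apply, ContinuousLinearMap.smul_apply]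
  abel

theorem pr_D (o : Option ι) (a : ι) {Y : E → V1 ι G} {x : E} (hY : DifferentiableAt ℝ Y x) :
    pr o (F.D p (fun a x => dg (A a x)) a Y x) = F.D p A a (fun y => pr o (Y y)) x := by
  simp only [Fm.D, cd_eq, map_add, pr_dg, dd_clm (pr o) hY]

theorem sm_dg (hA : ∀ a, ContDiffOn ℝ ∞ (A a) Ω) (a : ι) :
    ContDiffOn ℝ ∞ (fun x => (dg (A a x) : V1 ι G →L[ℝ] V1 ι G)) Ω := sm_clm _ (hA a)

theorem pr_Dl (hΩ : IsOpen Ω) (hm : ∀ x ∈ Ω, (p, x) ∈ F.O) (hA : ∀ a, ContDiffOn ℝ ∞ (A a) Ω) (o : Option ι)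
    {Y : E → V1 ι G} (hY : ContDiffOn ℝ ∞ Y Ω) : ∀ (l : List ι) {x : E}, x ∈ Ω →
    pr o (F.Dl p (fun a x => dg (A a x)) l Y x) = F.Dl p A l (fun y => pr o (Y y)) x
  | [], _, _ => rfl
  | a :: l, x, hx => by
    rw [Fm.Dl, pr_D o a (dOn hΩ (sm_Dl hΩ hm (sm_dg hA) hY l) hx)]
    exact cd_congr (evEq hΩ (fun y hy => pr_Dl hΩ hm hA o hY l hy) hx)

theorem Dl_append (l l' : List ι) (s : E → G) : F.Dl p A (l ++ l') s = F.Dl p A l (F.Dl p A l' s) := by
  induction l with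
  | nil => rfl
  | cons a l ih => simp only [List.cons_append, Fm.Dl, ih]

theorem curv_dg (a b : ι) {x : E} (ha : DifferentiableAt ℝ (A a) x) (hb : DifferentiableAt ℝ (A b) x) :
    F.curv p (fun a x => (dg (A a x) : V1 ι G →L[ℝ] V1 ι G)) a b x = dg (F.curv p A a b x) := by
  have e : ∀ (X : E → E) (B : E → G →L[ℝ] G), DifferentiableAt ℝ B x →
      dd X (fun x => (dg (B x) : V1 ι G →L[ℝ] V1 ι G)) x = dg (dd X B x) := fun X B hB =>
    dd_clm (G' := V1 ι G →L[ℝ] V1 ι G) dg hB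
  simp only [Fm.curv, map_sub, map_add, map_sum, map_smul, dg_mul, e _ _ ha, e _ _ hb]

end fm

namespace Sys

variable {V : Type*} [NormedAddCommGroup V] [NormedSpace ℝ V] (S : Sys F V)

theorem tan_vec {z : P × E} (hz : z ∈ F.O) {ξ : V →L[ℝ] V} (h : Tan (S.Γ z) ξ) (v : V) :
    fderiv ℝ S.Q (z, v) (0, ξ v) = ξ (S.Q (z, v)) := by
  obtain ⟨γ, h1, h2, h3⟩ := h
  have := eqv_vec F.opn S.smQ hz 0 h3 h3 (by
    filter_upwards [h1] with t ht v
    simpa using S.eqQ _ hz _ ht v) v 0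
  simpa [h2, ← Prod.zero_eq_mk] using this

theorem tan_op {T : (P × E) × V → V →L[ℝ] V} (hT : ContDiffOn ℝ ∞ T (F.O ×ˢ univ))
    (hE : ∀ z ∈ F.O, ∀ g ∈ S.Γ z, ∀ v, T (z, g v) * g = g * T (z, v))
    {z : P × E} (hz : z ∈ F.O) {ξ : V →L[ℝ] V} (h : Tan (S.Γ z) ξ) (v : V) :
    fderiv ℝ T (z, v) (0, ξ v) + T (z, v) * ξ = ξ * T (z, v) := by
  obtain ⟨γ, h1, h2, h3⟩ := h
  have := eqv_op F.opn hT hz 0 h3 h3 (by
    filter_upwards [h1] with t ht v
    simpa using hE _ hz _ ht v) v 0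
  simpa [h2, ← Prod.zero_eq_mk] using this

theorem raw_split {G : Type*} [NormedAddCommGroup G] [NormedSpace ℝ G] (f : (P × E) × V → G) (a : ι) (z : P × E)
    (v u : V) (A : V →L[ℝ] V) : fderiv ℝ f (z, v) ((0, F.e a z), u) =
      S.raw f a z v (u + A v) - fderiv ℝ f (z, v) (0, (A - S.W a z) v) := by
  unfold raw
  rw [← map_sub]
  congr 1
  simp

end Sys

namespace Sol

variable {V : Type*} [NormedAddCommGroup V] [InnerProductSpace ℝ V] {S : Sys F V} {p : P} {Ω : Set E}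
  {A : ι → E → V →L[ℝ] V} {U : E → V}

theorem smD (h : Sol S p Ω A U) (a : ι) {s : E → V} (hs : ContDiffOn ℝ ∞ s Ω) : ContDiffOn ℝ ∞ (F.D p A a s) Ω :=
  sm_D h.opn h.mem h.smA a hs

theorem mono (h : Sol S p Ω A U) {Ω' : Set E} (ho : IsOpen Ω') (hs : Ω' ⊆ Ω) : Sol S p Ω' A U where
  opn := ho
  mem x hx := h.mem x (hs hx)
  smA a := (h.smA a).mono hs
  smU := h.smU.mono hs
  skew a x hx := h.skew a x (hs hx)
  tan a x hx := h.tan a x (hs hx)
  curv a b x hx := h.curv a b x (hs hx)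
  eqn x hx := h.eqn x (hs hx)

theorem D_Q (h : Sol S p Ω A U) (a : ι) {x : E} (hx : x ∈ Ω) :
    F.D p A a (fun y => S.Q ((p, y), U y)) x = S.nQ a (p, x) (U x) (F.D p A a U x) := by
  rw [Fm.D, cd_eq, dd_coef S.smQ (h.mem x hx) (dOn h.opn h.smU hx), Fm.X, S.raw_split _ a _ _ _ (A a x),
    S.tan_vec (h.mem x hx) (h.tan a x hx), Sys.nQ, ← cd_eq, Fm.D]
  simp only [ContinuousLinearMap.sub_apply]
  abel

theorem D_T (h : Sol S p Ω A U) {T : (P × E) × V → V →L[ℝ] V} (hT : ContDiffOn ℝ ∞ T (F.O ×ˢ univ))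
    (hE : ∀ z ∈ F.O, ∀ g ∈ S.Γ z, ∀ v, T (z, g v) * g = g * T (z, v)) (a : ι) {x : E} (hx : x ∈ Ω) {s : E → V}
    (hs : DifferentiableAt ℝ s x) :
    F.D p A a (fun y => T ((p, y), U y) (s y)) x =
      S.nT T a (p, x) (U x) (F.D p A a U x) (s x) + T ((p, x), U x) (F.D p A a s x) := by
  rw [Fm.D, cd_app (A := A a) (dOn h.opn (sm_coef hT h.mem h.smU) hx) hs,
    dd_coef hT (h.mem x hx) (dOn h.opn h.smU hx), Fm.X, S.raw_split _ a _ _ _ (A a x),
    eq_sub_of_add_eq (S.tan_op hT hE (h.mem x hx) (h.tan a x hx) (U x)), Sys.nT]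
  congr 2
  rw [← cd_eq, Fm.D, ← ContinuousLinearMap.mul_def, ← ContinuousLinearMap.mul_def]
  noncomm_ring

theorem comm (h : Sol S p Ω A U) (a b : ι) {s : E → V} (hs : ContDiffOn ℝ ∞ s Ω) {x : E} (hx : x ∈ Ω) :
    F.D p A a (F.D p A b s) x = F.D p A b (F.D p A a s) x + S.Φ a b ((p, x), U x) (s x)
      + ∑ d, F.c a b d (p, x) • F.D p A d s x := by
  rw [← h.curv a b x hx]; exact D_comm h.opn h.mem h.smA a b hs hx

/-- the equation for `D_c U` -/
theorem lap_D (h : Sol S p Ω A U) (c : ι) {x : E} (hx : x ∈ Ω) :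
    F.Lap p A (F.D p A c U) x = (∑ a, S.L a ((p, x), U x) (F.D p A c (F.D p A a U) x)
      + ∑ m, ∑ a, (F.c a c m (p, x) + F.c m c a (p, x)) • F.D p A m (F.D p A a U) x)
      + S.Qc c ((p, x), F.up p A U x) := by
  have hU := h.smU
  have hD := fun a => h.smD a hU
  have hDD := fun a b => h.smD a (hD b)
  have hc := fun a b d => sm_par (F.smc a b d) h.mem
  have hΦ := fun a b => (sm_coef (S.smΦ a b) h.mem hU).clm_apply hU
  have hL := fun a => (sm_coef (S.smL a) h.mem hU).clm_apply (hD a)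
  have e1 : ∀ a, F.D p A a (F.D p A a (F.D p A c U)) x = F.D p A c (F.D p A a (F.D p A a U)) x
      + (S.Φ a c ((p, x), U x) (F.D p A a U x) + ∑ d, F.c a c d (p, x) • F.D p A d (F.D p A a U) x)
      + (S.nT (S.Φ a c) a (p, x) (U x) (F.D p A a U x) (U x) + S.Φ a c ((p, x), U x) (F.D p A a U x))
      + ∑ d, (fderiv ℝ (F.c a c d) (p, x) (0, F.e a (p, x)) • F.D p A d U x
        + F.c a c d (p, x) • F.D p A a (F.D p A d U) x) := by
    intro a
    have t1 : F.D p A a (F.D p A a (F.D p A c U)) x = F.D p A a (fun y => F.D p A c (F.D p A a U) y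
        + S.Φ a c ((p, y), U y) (U y) + ∑ d, F.c a c d (p, y) • F.D p A d U y) x :=
      cd_congr (evEq h.opn (fun y hy => h.comm a c hU hy) hx)
    have d1 := dOn h.opn (hDD c a) hx
    have d2 := dOn h.opn (hΦ a c) hx
    have d3 : ∀ d ∈ Finset.univ, DifferentiableAt ℝ (fun y => F.c a c d (p, y) • F.D p A d U y) x :=
      fun d _ => (dOn h.opn (hc a c d) hx).smul (dOn h.opn (hD d) hx)
    rw [t1, Fm.D, cd_add (d1.fun_add d2) (DifferentiableAt.fun_sum d3), cd_add d1 d2, cd_sum _ d3]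
    congr 1
    · congr 1
      · rw [← add_assoc]; exact h.comm a c (hD a) hx
      · exact h.D_T (S.smΦ a c) (S.eqΦ a c) a hx (dOn h.opn hU hx)
    · refine Finset.sum_congr rfl fun d _ => ?_
      rw [cd_smul (dOn h.opn (hc a c d) hx) (dOn h.opn (hD d) hx), dd_par (F.smc a c d) (h.mem x hx)]
      rfl
  have e2 : ∑ a, F.D p A c (F.D p A a (F.D p A a U)) x =
      ∑ a, (S.nT (S.L a) c (p, x) (U x) (F.D p A c U x) (F.D p A a U x)
        + S.L a ((p, x), U x) (F.D p A c (F.D p A a U) x)) + S.nQ c (p, x) (U x) (F.D p A c U x) := by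
    have t1 : ∑ a, F.D p A c (F.D p A a (F.D p A a U)) x = F.D p A c (F.Lap p A U) x :=
      (cd_sum _ fun a _ => dOn h.opn (hDD a a) hx).symm
    have t2 : F.D p A c (F.Lap p A U) x = F.D p A c (fun y => ∑ a, S.L a ((p, y), U y) (F.D p A a U y)
        + S.Q ((p, y), U y)) x := cd_congr (evEq h.opn h.eqn hx)
    have d3 : ∀ a ∈ Finset.univ, DifferentiableAt ℝ (fun y => S.L a ((p, y), U y) (F.D p A a U y)) x :=
      fun a _ => dOn h.opn (hL a) hx
    rw [t1, t2, Fm.D, cd_add (DifferentiableAt.fun_sum d3) (dOn h.opn (sm_coef S.smQ h.mem hU) hx), cd_sum _ d3]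
    congr 1
    · exact Finset.sum_congr rfl fun a _ => h.D_T (S.smL a) (S.eqL a) c hx (dOn h.opn (hD a) hx)
    · exact h.D_Q c hx
  have e3 : ∑ m, ∑ a, (F.c a c m (p, x) + F.c m c a (p, x)) • F.D p A m (F.D p A a U) x =
      ∑ a, ∑ d, F.c a c d (p, x) • F.D p A d (F.D p A a U) x
        + ∑ a, ∑ d, F.c a c d (p, x) • F.D p A a (F.D p A d U) x := by
    simp only [add_smul, Finset.sum_add_distrib]
    rw [Finset.sum_comm]
  simp only [Fm.Lap, e1, Finset.sum_add_distrib, e2, e3, Sys.Qc, pr_up_none, pr_up_some, two_smul]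
  abel

/-- **prolongation** -/
theorem pro (h : Sol S p Ω A U) : Sol S.pro p Ω (fun a x => dg (A a x)) (F.up p A U) where
  opn := h.opn
  mem := h.mem
  smA := sm_dg h.smA
  smU := sm_up h.opn h.mem h.smA h.smU
  skew a x hx := dg_skew (h.skew a x hx)
  tan a x hx := by
    have := (h.tan a x hx).dg (ι := ι)
    rwa [map_sub] at this
  curv a b x hx := by
    rw [curv_dg a b (dOn h.opn (h.smA a) hx) (dOn h.opn (h.smA b) hx), h.curv a b x hx]; rfl
  eqn x hx := by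
    classical
    have hup := sm_up h.opn h.mem h.smA h.smU
    have e : ∀ o a, pr o (F.D p (fun a x => dg (A a x)) a (F.D p (fun a x => dg (A a x)) a (F.up p A U)) x)
        = F.D p A a (F.D p A a fun y => pr o (F.up p A U y)) x := fun o a =>
      pr_Dl h.opn h.mem h.smA o hup [a, a] hx
    have e' : ∀ o a, pr o (F.D p (fun a x => dg (A a x)) a (F.up p A U) x)
        = F.D p A a (fun y => pr o (F.up p A U y)) x := fun o a => pr_D o a (dOn h.opn hup hx)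
    refine v1_ext fun o => ?_
    cases o with
    | none =>
      simp only [Fm.Lap, map_sum, map_add, e, Sys.pro, Sys.pr_L1_none, Sys.pr_Q1_none, Sys.Q0, pr_up_none,
        pr_up_some, Finset.sum_const_zero, zero_add]
      exact h.eqn x hx
    | some c =>
      simp only [Fm.Lap, map_sum, map_add, e, Sys.pro, Sys.pr_L1_some, Sys.pr_Q1_some, e', pr_up_none,
        pr_up_some, Finset.sum_add_distrib, Finset.sum_ite_eq, Finset.mem_univ, if_true]
      exact h.lap_D c hx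

end Sol

end

end Crest.Agent.X212.Bern84
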