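import Crest.Agent.X212.Bern84.BernB

/-!
# BERN (helper84): Yang–Mills–Higgs type systems; `U = (w, D w, F)` solves a `Sys`
-/

set_option autoImplicit false
set_option linter.unusedSectionVars false
set_option linter.deprecated false
open scoped ContDiff Topology RealInnerProductSpace
open Set Filter

namespace Crest.Agent.X212.Bern84
open Cyc79 (BB Bd bb_const bb_fst bb_snd)

noncomputable section

variable {P E ι : Type} [NormedAddCommGroup P] [NormedSpace ℝ P] [NormedAddCommGroup E]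
  [NormedSpace ℝ E] [Fintype ι] {F : Fm P E ι}

/-- the fibre of `(w, D w, F)` -/
abbrev V2 (ι V : Type) : Type := V1 (ι ⊕ ι × ι) V

/-- index of `D_a w` -/
abbrev iD (a : ι) : Option (ι ⊕ ι × ι) := some (Sum.inl a)

/-- index of `F a b` -/
abbrev iF (a b : ι) : Option (ι ⊕ ι × ι) := some (Sum.inr (a, b))

/-- a family given by its three kinds of components -/
def el3 {α : Type} (f0 : α) (f1 : ι → α) (f2 : ι → ι → α) : Option (ι ⊕ ι × ι) → α
  | none => f0
  | some (Sum.inl a) => f1 a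
  | some (Sum.inr s) => f2 s.1 s.2

theorem cases3 {M : Option (ι ⊕ ι × ι) → Prop} (h0 : M none) (h1 : ∀ a, M (iD a)) (h2 : ∀ a b, M (iF a b)) :
    ∀ o, M o
  | none => h0
  | some (Sum.inl a) => h1 a
  | some (Sum.inr s) => h2 s.1 s.2

section gen

variable {κ V : Type} [Fintype κ] [NormedAddCommGroup V] [NormedSpace ℝ V]

/-- a vector from its components -/
def gat (f : Option κ → V) : V1 κ V := ∑ o, inj o (f o)

@[simp] theorem pr_gat (o : Option κ) (f : Option κ → V) : pr o (gat f) = f o := by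
  rw [gat, map_sum, sum_pr_inj]

/-- an operator from its components -/
def gatL (T : Option κ → V1 κ V →L[ℝ] V) : V1 κ V →L[ℝ] V1 κ V := ∑ o, inj o ∘L T o

@[simp] theorem pr_gatL (o : Option κ) (T : Option κ → V1 κ V →L[ℝ] V) (y : V1 κ V) : pr o (gatL T y) = T o y := by
  have : gatL T y = gat fun o => T o y := by simp [gatL, gat]
  rw [this, pr_gat]

theorem bb_gat {Z X : Type} [NormedAddCommGroup Z] [NormedSpace ℝ Z] [NormedAddCommGroup X] [NormedSpace ℝ X]
    {O : Set Z} {f : Z × X → Option κ → V} (h : ∀ o, BB O fun q => f q o) : BB O fun q => gat (f q) :=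
  BB.sum fun o => (h o).clm (G' := V1 κ V) (inj o)

theorem bb_gatL {Z X : Type} [NormedAddCommGroup Z] [NormedSpace ℝ Z] [NormedAddCommGroup X] [NormedSpace ℝ X]
    {O : Set Z} {T : Z × X → Option κ → V1 κ V →L[ℝ] V} (h : ∀ o, BB O fun q => T q o) :
    BB O fun q => gatL (T q) := BB.sum fun o => (bb_const _).comp (h o)

theorem bb_pr' {Z : Type} [NormedAddCommGroup Z] [NormedSpace ℝ Z] {O : Set Z} (o : Option κ) :
    BB O fun q : Z × V1 κ V => pr o q.2 := bb_snd (V := V1 κ V) (pr o)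

theorem sm_gat {s : Set E} {f : E → Option κ → V} (h : ∀ o, ContDiffOn ℝ ∞ (fun x => f x o) s) :
    ContDiffOn ℝ ∞ (fun x => gat (f x)) s := ContDiffOn.sum fun o _ => sm_clm (V' := V1 κ V) (inj o) (h o)

variable {p : P} {A : ι → E → V →L[ℝ] V} {Ω : Set E}

theorem prD (o : Option κ) (a : ι) {Y : E → V1 κ V} {x : E} (hY : DifferentiableAt ℝ Y x) :
    pr o (F.D p (fun a x => dg (A a x)) a Y x) = F.D p A a (fun y => pr o (Y y)) x := by
  simp only [Fm.D, cd_eq, map_add, pr_dg, dd_clm (pr o) hY]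

theorem prDl (hΩ : IsOpen Ω) (hm : ∀ x ∈ Ω, (p, x) ∈ F.O) (hA : ∀ a, ContDiffOn ℝ ∞ (A a) Ω) (o : Option κ)
    {Y : E → V1 κ V} (hY : ContDiffOn ℝ ∞ Y Ω) : ∀ (l : List ι) {x : E}, x ∈ Ω →
    pr o (F.Dl p (fun a x => dg (A a x)) l Y x) = F.Dl p A l (fun y => pr o (Y y)) x
  | [], _, _ => rfl
  | a :: l, x, hx => by
    rw [Fm.Dl, prD o a (dOn hΩ (sm_Dl hΩ hm (fun a => sm_clm (V' := V1 κ V →L[ℝ] V1 κ V) dg (hA a)) hY l) hx)]
    exact cd_congr (evEq hΩ (fun y hy => prDl hΩ hm hA o hY l hy) hx)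

theorem curv_dg' (a b : ι) {x : E} (ha : DifferentiableAt ℝ (A a) x) (hb : DifferentiableAt ℝ (A b) x) :
    F.curv p (fun a x => (dg (A a x) : V1 κ V →L[ℝ] V1 κ V)) a b x = dg (F.curv p A a b x) := by
  have e : ∀ (X : E → E) (B : E → V →L[ℝ] V), DifferentiableAt ℝ B x →
      dd X (fun x => (dg (B x) : V1 κ V →L[ℝ] V1 κ V)) x = dg (dd X B x) := fun X B hB =>
    dd_clm (G' := V1 κ V →L[ℝ] V1 κ V) dg hB
  simp only [Fm.curv, map_sub, map_add, map_sum, map_smul, dg_mul, e _ _ ha, e _ _ hb]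

end gen

/-- a Yang–Mills–Higgs type system -/
structure YM (F : Fm P E ι) (V : Type) [NormedAddCommGroup V] [NormedSpace ℝ V] where
  W : ι → P × E → V →L[ℝ] V
  Γ : P × E → Set (V →L[ℝ] V)
  Φ : ι → ι → (P × E) × V2 ι V → V →L[ℝ] V
  Q : (P × E) × V2 ι V → V
  J : ι → (P × E) × V2 ι V → V
  B : ι → ι → ι → (P × E) × V2 ι V → V
  smW : ∀ a, ContDiffOn ℝ ∞ (W a) F.O
  par : ∀ a, ∀ z ∈ F.O, ∀ g ∈ Γ z, ∃ γ : ℝ → V →L[ℝ] V,
    (∀ᶠ t in 𝓝 (0 : ℝ), γ t ∈ Γ (z + t • ((0 : P), F.e a z))) ∧ γ 0 = g ∧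
      HasDerivAt γ (g * W a z - W a z * g) 0
  bbΦ : ∀ a b, BB F.O (Φ a b)
  bbQ : BB F.O Q
  bbJ : ∀ b, BB F.O (J b)
  bbB : ∀ a b c, BB F.O (B a b c)
  eqΦ : ∀ a b, ∀ z ∈ F.O, ∀ g ∈ Γ z, ∀ u, Φ a b (z, dg g u) * g = g * Φ a b (z, u)
  eqQ : ∀ z ∈ F.O, ∀ g ∈ Γ z, ∀ u, Q (z, dg g u) = g (Q (z, u))
  eqJ : ∀ b, ∀ z ∈ F.O, ∀ g ∈ Γ z, ∀ u, J b (z, dg g u) = g (J b (z, u))
  eqB : ∀ a b c, ∀ z ∈ F.O, ∀ g ∈ Γ z, ∀ u, B a b c (z, dg g u) = g (B a b c (z, u))

/-- the field `(w, D w, F)` -/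
def Fm.yup (F : Fm P E ι) {V : Type} [NormedAddCommGroup V] [NormedSpace ℝ V] (p : P) (A : ι → E → V →L[ℝ] V)
    (w : E → V) (G : ι → ι → E → V) (x : E) : V2 ι V :=
  gat (el3 (w x) (fun a => F.D p A a w x) fun a b => G a b x)

/-- smooth solutions -/
structure YSol {V : Type} [NormedAddCommGroup V] [InnerProductSpace ℝ V] (Y : YM F V) (p : P) (Ω : Set E)
    (A : ι → E → V →L[ℝ] V) (w : E → V) (G : ι → ι → E → V) : Prop extends Cn F p Ω A where
  smw : ContDiffOn ℝ ∞ w Ω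
  smG : ∀ a b, ContDiffOn ℝ ∞ (G a b) Ω
  tan : ∀ a, ∀ x ∈ Ω, Tan (Y.Γ (p, x)) (A a x - Y.W a (p, x))
  curv : ∀ a b, ∀ x ∈ Ω, F.curv p A a b x = Y.Φ a b ((p, x), F.yup p A w G x)
  anti : ∀ a b, ∀ x ∈ Ω, G a b x = -G b a x
  lap : ∀ x ∈ Ω, F.Lap p A w x = Y.Q ((p, x), F.yup p A w G x)
  div : ∀ b, ∀ x ∈ Ω, ∑ a, F.D p A a (G a b) x = Y.J b ((p, x), F.yup p A w G x)
  bia : ∀ a b c, ∀ x ∈ Ω, F.D p A a (G b c) x + F.D p A b (G c a) x + F.D p A c (G a b) x
    = Y.B a b c ((p, x), F.yup p A w G x)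

namespace YM

variable {V : Type} [NormedAddCommGroup V] [NormedSpace ℝ V] (Y : YM F V)

/-- first order part -/
def L0 (m : ι) (z : P × E) : V2 ι V →L[ℝ] V2 ι V :=
  gatL (el3 0 (fun c => ∑ a, F.c a c m z • pr (iD a))
    fun b c => -∑ a, (F.c a b m z • pr (iF c a) + F.c a c m z • pr (iF a b)))

/-- zero order part -/
def Q0 (q : (P × E) × V2 ι V) : V2 ι V :=
  gat (el3 (Y.Q q) (fun c => ∑ a, Y.Φ a c q (pr (iD a) q.2))
    fun b c => -∑ a, (Y.Φ a b q (pr (iF c a) q.2) + Y.Φ a c q (pr (iF a b) q.2)))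

open Classical in
/-- divergence part -/
def H (m : ι) (q : (P × E) × V2 ι V) : V2 ι V :=
  gat (el3 0 (fun c => (if m = c then Y.Q q else 0) + (Y.Φ m c q (pr none q.2) + ∑ d, F.c m c d q.1 • pr (iD d) q.2))
    fun b c => Y.B m b c q + (if m = b then Y.J c q else 0) - if m = c then Y.J b q else 0)

theorem bb_L0 (m : ι) : BB F.O fun q : (P × E) × V2 ι V => L0 (F := F) (V := V) m q.1 := by
  refine bb_gatL (cases3 (bb_const _) (fun c => ?_) fun b c => ?_)
  · exact BB.sum fun a => (bb_fst F.opn (F.smc a c m)).smul (bb_const _)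
  · exact (BB.sum fun a => ((bb_fst F.opn (F.smc a b m)).smul (bb_const _)).add
      ((bb_fst F.opn (F.smc a c m)).smul (bb_const _))).neg

theorem bb_Q0 : BB F.O Y.Q0 := by
  refine bb_gat (cases3 Y.bbQ (fun c => ?_) fun b c => ?_)
  · exact BB.sum fun a => (Y.bbΦ a c).app (bb_pr' _)
  · exact (BB.sum fun a => ((Y.bbΦ a b).app (bb_pr' _)).add ((Y.bbΦ a c).app (bb_pr' _))).neg

theorem bb_ite {f : (P × E) × V2 ι V → V} (h : BB F.O f) (c : Prop) [Decidable c] :
    BB F.O fun q => if c then f q else 0 := by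
  split_ifs
  · exact h
  · exact bb_const _

theorem bb_H (m : ι) : BB F.O (Y.H m) := by
  classical
  refine bb_gat (cases3 (bb_const _) (fun c => ?_) fun b c => ?_)
  · exact (bb_ite Y.bbQ _).add (((Y.bbΦ m c).app (bb_pr' _)).add
      (BB.sum fun d => (bb_fst F.opn (F.smc m c d)).smul (bb_pr' _)))
  · exact ((Y.bbB m b c).add (bb_ite (Y.bbJ c) _)).sub (bb_ite (Y.bbJ b) _)

theorem bb_Φ (a b : ι) : BB F.O fun q => (dg (Y.Φ a b q) : V2 ι V →L[ℝ] V2 ι V) :=
  (Y.bbΦ a b).clm (G' := V2 ι V →L[ℝ] V2 ι V) dg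

/-- the system without the divergence part -/
def sys0 : Sys F (V2 ι V) where
  W a z := dg (Y.W a z)
  Γ z := dg '' Y.Γ z
  L m q := L0 (F := F) m q.1
  Q := Y.Q0
  Φ a b q := dg (Y.Φ a b q)
  smW a := sm_clm _ (Y.smW a)
  smL m := (bb_L0 m).sm
  smQ := Y.bb_Q0.sm
  smΦ a b := (Y.bb_Φ a b).sm
  par := by
    rintro a z hz _ ⟨g, hg, rfl⟩
    obtain ⟨γ, h1, h2, h3⟩ := Y.par a z hz g hg
    refine ⟨fun t => dg (γ t), ?_, by simp only [h2], ?_⟩
    · filter_upwards [h1] with t ht using ⟨_, ht, rfl⟩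
    · rw [← dg_mul, ← dg_mul, ← map_sub]
      exact (dg : _ →L[ℝ] (V2 ι V →L[ℝ] V2 ι V)).hasFDerivAt.comp_hasDerivAt (0 : ℝ) h3
  eqL := by
    rintro m z hz _ ⟨g, hg, rfl⟩ v
    ext1 y
    refine v1_ext (cases3 ?_ (fun c => ?_) fun b c => ?_) <;>
      simp [L0, el3]
  eqQ := by
    rintro z hz _ ⟨g, hg, rfl⟩ v
    refine v1_ext (cases3 ?_ (fun c => ?_) fun b c => ?_) <;>
      simp only [Q0, pr_gat, el3, pr_dg, map_sum, map_neg, map_add, Y.eqQ z hz g hg,
        Sys.app_of_mul (Y.eqΦ _ _ z hz g hg _)]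
  eqΦ := by
    rintro a b z hz _ ⟨g, hg, rfl⟩ v
    rw [← dg_mul, ← dg_mul, Y.eqΦ a b z hz g hg]

theorem bd0 : Bd Y.sys0 := ⟨bb_L0, Y.bb_Q0, Y.bb_Φ⟩

theorem ev_H (m : ι) : Y.sys0.EV (Y.H m) where
  bb := Y.bb_H m
  eq := by
    rintro z hz _ ⟨g, hg, rfl⟩ v
    refine v1_ext (cases3 ?_ (fun c => ?_) fun b c => ?_) <;>
      simp only [H, pr_gat, el3, pr_dg, map_sum, map_sub, map_add, map_smul, map_zero, apply_ite g,
        Y.eqQ z hz g hg, Y.eqJ _ z hz g hg, Y.eqB _ _ _ z hz g hg, Sys.app_of_mul (Y.eqΦ _ _ z hz g hg _)]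

/-- the elliptic system solved by `(w, D w, F)` -/
def sys : Sys F (V2 ι V) := Y.sys0.addDiv Y.bd0 Y.ev_H

theorem bd : Bd Y.sys := Y.sys0.bd_addDiv Y.bd0 Y.ev_H

end YM

section yup

variable {V : Type} [NormedAddCommGroup V] [NormedSpace ℝ V] (p : P) (A : ι → E → V →L[ℝ] V)
  (w : E → V) (G : ι → ι → E → V) (x : E)

@[simp] theorem pr_yup0 : pr none (F.yup p A w G x) = w x := pr_gat _ _

@[simp] theorem pr_yupD (a : ι) : pr (iD a) (F.yup p A w G x) = F.D p A a w x := pr_gat _ _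

@[simp] theorem pr_yupF (a b : ι) : pr (iF a b) (F.yup p A w G x) = G a b x := pr_gat _ _

end yup

section D

variable {V : Type} [NormedAddCommGroup V] [NormedSpace ℝ V] {p : P} {A : ι → E → V →L[ℝ] V} {a : ι} {x : E}
  {f g : E → V}

theorem D_add (hf : DifferentiableAt ℝ f x) (hg : DifferentiableAt ℝ g x) :
    F.D p A a (fun y => f y + g y) x = F.D p A a f x + F.D p A a g x := cd_add hf hg

theorem D_neg (f : E → V) : F.D p A a (fun y => -f y) x = -F.D p A a f x := by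
  simp only [Fm.D, cd, fderiv_fun_neg, map_neg, ContinuousLinearMap.neg_apply]; abel

theorem D_sub (hf : DifferentiableAt ℝ f x) (hg : DifferentiableAt ℝ g x) :
    F.D p A a (fun y => f y - g y) x = F.D p A a f x - F.D p A a g x := by
  simp only [Fm.D, cd_eq, dd_sub hf hg, map_sub]; abel

theorem D_zero : F.D p A a (fun _ => (0 : V)) x = 0 := by simp [Fm.D, cd]

theorem D_ite (c : Prop) [Decidable c] (f : E → V) :
    F.D p A a (fun y => if c then f y else 0) x = if c then F.D p A a f x else 0 := by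
  split_ifs
  · rfl
  · exact D_zero

theorem D_sum {κ : Type*} [Fintype κ] {f : κ → E → V} (hf : ∀ i, DifferentiableAt ℝ (f i) x) :
    F.D p A a (fun y => ∑ i, f i y) x = ∑ i, F.D p A a (f i) x := cd_sum _ fun i _ => hf i

theorem D_congr (h : f =ᶠ[𝓝 x] g) : F.D p A a f x = F.D p A a g x := cd_congr h

theorem d_ite (c : Prop) [Decidable c] (hf : DifferentiableAt ℝ f x) :
    DifferentiableAt ℝ (fun y => if c then f y else 0) x := by
  split_ifs
  · exact hf
  · exact differentiableAt_const _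

end D

namespace YSol

variable {V : Type} [NormedAddCommGroup V] [InnerProductSpace ℝ V] {Y : YM F V} {p : P} {Ω : Set E}
  {A : ι → E → V →L[ℝ] V} {w : E → V} {G : ι → ι → E → V}

theorem smU (h : YSol Y p Ω A w G) : ContDiffOn ℝ ∞ (F.yup p A w G) Ω :=
  sm_gat (cases3 h.smw (fun a => h.smD a h.smw) h.smG)

theorem comm (h : YSol Y p Ω A w G) (a b : ι) {s : E → V} (hs : ContDiffOn ℝ ∞ s Ω) {x : E} (hx : x ∈ Ω) :
    F.D p A a (F.D p A b s) x = F.D p A b (F.D p A a s) x + Y.Φ a b ((p, x), F.yup p A w G x) (s x)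
      + ∑ d, F.c a b d (p, x) • F.D p A d s x := by
  rw [← h.curv a b x hx]; exact D_comm h.opn h.mem h.smA a b hs hx

theorem dcoef {X : Type} [NormedAddCommGroup X] [NormedSpace ℝ X] (h : YSol Y p Ω A w G)
    {f : (P × E) × V2 ι V → X} (hf : BB F.O f) {x : E} (hx : x ∈ Ω) :
    DifferentiableAt ℝ (fun y => f ((p, y), F.yup p A w G y)) x := dOn h.opn (sm_coef hf.sm h.mem h.smU) hx

theorem lapD (h : YSol Y p Ω A w G) (c : ι) {x : E} (hx : x ∈ Ω) :
    F.Lap p A (F.D p A c w) x = F.D p A c (fun y => Y.Q ((p, y), F.yup p A w G y)) x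
      + ∑ m, F.D p A m (fun y => Y.Φ m c ((p, y), F.yup p A w G y) (w y) + ∑ d, F.c m c d (p, y) • F.D p A d w y) x
      + ∑ m, ∑ a, F.c a c m (p, x) • F.D p A m (F.D p A a w) x
      + ∑ a, Y.Φ a c ((p, x), F.yup p A w G x) (F.D p A a w x) := by
  have hD := fun a => h.smD a h.smw
  have hDD := fun a b => h.smD a (hD b)
  have e1 : ∀ a, F.D p A a (F.D p A a (F.D p A c w)) x = F.D p A c (F.D p A a (F.D p A a w)) x
      + Y.Φ a c ((p, x), F.yup p A w G x) (F.D p A a w x) + ∑ d, F.c a c d (p, x) • F.D p A d (F.D p A a w) x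
      + F.D p A a (fun y => Y.Φ a c ((p, y), F.yup p A w G y) (w y) + ∑ d, F.c a c d (p, y) • F.D p A d w y) x := by
    intro a
    rw [← h.comm a c (hD a) hx, ← D_add (dOn h.opn (hDD c a) hx) (((h.dcoef (Y.bbΦ a c) hx).clm_apply
      (dOn h.opn h.smw hx)).fun_add (DifferentiableAt.fun_sum fun d _ =>
        (dOn h.opn (sm_par (F.smc a c d) h.mem) hx).fun_smul (dOn h.opn (hD d) hx)))]
    exact D_congr (evEq h.opn (fun y hy => by rw [h.comm a c h.smw hy, add_assoc]) hx)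
  have e2 : ∑ a, F.D p A c (F.D p A a (F.D p A a w)) x = F.D p A c (fun y => Y.Q ((p, y), F.yup p A w G y)) x := by
    rw [← D_sum fun a => dOn h.opn (hDD a a) hx]
    exact D_congr (evEq h.opn h.lap hx)
  simp only [Fm.Lap, e1, Finset.sum_add_distrib, e2]
  rw [Finset.sum_comm (f := fun m a => F.c a c m (p, x) • F.D p A m (F.D p A a w) x)]
  abel

theorem lapG (h : YSol Y p Ω A w G) (b c : ι) {x : E} (hx : x ∈ Ω) :
    F.Lap p A (G b c) x = ∑ m, F.D p A m (fun y => Y.B m b c ((p, y), F.yup p A w G y)) x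
      + F.D p A b (fun y => Y.J c ((p, y), F.yup p A w G y)) x
      - F.D p A c (fun y => Y.J b ((p, y), F.yup p A w G y)) x
      - ∑ m, ∑ a, (F.c a b m (p, x) • F.D p A m (G c a) x + F.c a c m (p, x) • F.D p A m (G a b) x)
      - ∑ a, (Y.Φ a b ((p, x), F.yup p A w G x) (G c a x) + Y.Φ a c ((p, x), F.yup p A w G x) (G a b x)) := by
  have hD := fun a b c => h.smD a (h.smG b c)
  have e1 : ∀ a, F.D p A a (F.D p A a (G b c)) x = F.D p A a (fun y => Y.B a b c ((p, y), F.yup p A w G y)) x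
      - F.D p A a (F.D p A b (G c a)) x - F.D p A a (F.D p A c (G a b)) x := by
    intro a
    have d1 := h.dcoef (Y.bbB a b c) hx
    have d2 := dOn h.opn (hD b c a) hx
    have d3 := dOn h.opn (hD c a b) hx
    rw [← D_sub d1 d2, ← D_sub (d1.fun_sub d2) d3]
    exact D_congr (evEq h.opn (fun y hy => by rw [← h.bia a b c y hy]; abel) hx)
  have e2 : ∑ a, F.D p A c (F.D p A a (G a b)) x = F.D p A c (fun y => Y.J b ((p, y), F.yup p A w G y)) x := by
    rw [← D_sum fun a => dOn h.opn (hD a a b) hx]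
    exact D_congr (evEq h.opn (h.div b) hx)
  have e3 : ∑ a, F.D p A b (F.D p A a (G c a)) x = -F.D p A b (fun y => Y.J c ((p, y), F.yup p A w G y)) x := by
    rw [← D_sum fun a => dOn h.opn (hD a c a) hx, ← D_neg]
    refine D_congr (evEq h.opn (fun y hy => ?_) hx)
    rw [← h.div c y hy, ← Finset.sum_neg_distrib]
    refine Finset.sum_congr rfl fun a _ => ?_
    rw [← D_neg]
    exact D_congr (evEq h.opn (h.anti c a) hy)
  simp only [Fm.Lap, e1, h.comm _ b (h.smG c _) hx, h.comm _ c (h.smG _ b) hx, Finset.sum_add_distrib,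
    Finset.sum_sub_distrib, e2, e3]
  rw [Finset.sum_comm (f := fun m a => F.c a b m (p, x) • F.D p A m (G c a) x),
    Finset.sum_comm (f := fun m a => F.c a c m (p, x) • F.D p A m (G a b) x)]
  abel

/-- **`(w, D w, F)` solves an elliptic system** -/
theorem sol (h : YSol Y p Ω A w G) : Sol Y.sys p Ω (fun a x => dg (A a x)) (F.yup p A w G) := by
  classical
  refine sol_addDiv Y.bd0 Y.ev_H h.diag h.smU (fun a x hx => ?_) (fun a b x hx => ?_) fun x hx => ?_
  · have := (h.tan a x hx).dg (ι := ι ⊕ ι × ι)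
    rwa [map_sub] at this
  · rw [curv_dg' a b (dOn h.opn (h.smA a) hx) (dOn h.opn (h.smA b) hx), h.curv a b x hx]; rfl
  have e : ∀ o a, pr o (F.D p (fun a x => dg (A a x)) a (F.D p (fun a x => dg (A a x)) a (F.yup p A w G)) x)
      = F.D p A a (F.D p A a fun y => pr o (F.yup p A w G y)) x := fun o a =>
    prDl h.opn h.mem h.smA o h.smU [a, a] hx
  have e' : ∀ o a, pr o (F.D p (fun a x => dg (A a x)) a (F.yup p A w G) x)
      = F.D p A a (fun y => pr o (F.yup p A w G y)) x := fun o a => prD o a (dOn h.opn h.smU hx)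
  have e'' : ∀ o m, pr o (F.D p (fun a x => dg (A a x)) m (fun y => Y.H m ((p, y), F.yup p A w G y)) x)
      = F.D p A m (fun y => pr o (Y.H m ((p, y), F.yup p A w G y))) x := fun o m =>
    prD o m (h.dcoef (Y.bb_H m) hx)
  refine v1_ext fun o => ?_
  simp only [Fm.Lap, map_sum, map_add, e, e'']
  revert o
  refine cases3 ?_ (fun c => ?_) fun b c => ?_
  · simp only [YM.sys0, YM.H, YM.L0, YM.Q0, pr_gat, pr_gatL, el3, pr_yup0,
      D_zero, ContinuousLinearMap.zero_apply, Finset.sum_const_zero, zero_add]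
    exact h.lap x hx
  · have d : ∀ m, DifferentiableAt ℝ (fun y => Y.Φ m c ((p, y), F.yup p A w G y) (w y)
        + ∑ d, F.c m c d (p, y) • F.D p A d w y) x := fun m =>
      ((h.dcoef (Y.bbΦ m c) hx).clm_apply (dOn h.opn h.smw hx)).fun_add (DifferentiableAt.fun_sum fun d _ =>
        (dOn h.opn (sm_par (F.smc m c d) h.mem) hx).fun_smul (dOn h.opn (h.smD d h.smw) hx))
    simp only [YM.sys0, YM.H, YM.L0, YM.Q0, pr_gat, pr_gatL, el3, pr_yup0,
      pr_yupD, ContinuousLinearMap.sum_apply, ContinuousLinearMap.smul_apply, e',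
      D_add (d_ite _ (h.dcoef Y.bbQ hx)) (d _), D_ite, Finset.sum_add_distrib, Finset.sum_ite_eq',
      Finset.mem_univ, if_true]
    exact h.lapD c hx
  · have d1 := fun m => h.dcoef (Y.bbB m b c) hx
    have d2 := fun m => d_ite (m = b) (h.dcoef (Y.bbJ c) hx)
    have d3 := fun m => d_ite (m = c) (h.dcoef (Y.bbJ b) hx)
    simp only [YM.sys0, YM.H, YM.L0, YM.Q0, pr_gat, pr_gatL, el3,
      pr_yupF, ContinuousLinearMap.sum_apply, ContinuousLinearMap.smul_apply, ContinuousLinearMap.neg_apply,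
      ContinuousLinearMap.add_apply, e', D_sub ((d1 _).fun_add (d2 _)) (d3 _), D_add (d1 _) (d2 _), D_ite,
      Finset.sum_sub_distrib, Finset.sum_neg_distrib]
    rw [Finset.sum_add_distrib]
    simp only [Finset.sum_ite_eq', Finset.mem_univ, if_true]
    exact (h.lapG b c hx).trans (by abel)

end YSol

end

end Crest.Agent.X212.Bern84
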